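import Vale.Agent.P073.HB.Acl
import Mathlib.MeasureTheory.Integral.Average
import Mathlib.MeasureTheory.Integral.MeanInequalities

/-!
# P073: generic segments: estimates, generic translations
-/

namespace Vale.Agent.P073.HB

open MeasureTheory Set Filter Topology
open scoped ENNReal ContDiff NNReal

variable {E E' : Type*} [NormedAddCommGroup E] [NormedSpace ℝ E] [FiniteDimensional ℝ E]
  [MeasurableSpace E] [BorelSpace E] {μ : Measure E} [μ.IsAddHaarMeasure]
  [NormedAddCommGroup E'] [NormedSpace ℝ E']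

/-- `f` is absolutely continuous on the segment from `x` to `x + v`, with derivative matrix `F`. -/
def GoodSeg (f : E → E') (F : E → (E →L[ℝ] E')) (x v : E) : Prop :=
  GoodDir f (fun y => F y v) x v

/-- The weak derivative identity. -/
def WeakDeriv (μ : Measure E) (Ω : Set E) (f : E → E') (F : E → (E →L[ℝ] E')) : Prop :=
  ∀ φ : E → ℝ, ContDiff ℝ ∞ φ → HasCompactSupport φ → tsupport φ ⊆ Ω → ∀ v : E,
    ∫ x in Ω, φ x • F x v ∂μ = - ∫ x in Ω, (fderiv ℝ φ x v) • f x ∂μ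

/-- **Absolute continuity on almost every segment with a given direction.** -/
theorem ae_goodSeg [CompleteSpace E'] {Ω : Set E} {f : E → E'}
    {F : E → (E →L[ℝ] E')} (hΩ : IsOpen Ω) (hf : ContinuousOn f Ω) (hF : LocallyIntegrableOn F Ω μ)
    (hw : WeakDeriv μ Ω f F) (v : E) :
    ∀ᵐ x ∂μ, (∀ s ∈ Icc (0 : ℝ) 1, x + s • v ∈ Ω) → GoodSeg f F x v := by
  have hg : LocallyIntegrableOn (fun y => F y v) Ω μ := by
    intro x hx
    obtain ⟨s, hs, hi⟩ := hF x hx
    exact ⟨s, hs, hi.apply_continuousLinearMap v⟩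
  exact ae_goodDir hΩ hf hg (fun φ h1 h2 h3 => hw φ h1 h2 h3 v)

/-- The exceptional set of starting points, for countably many directions and offsets. -/
theorem ae_goodSeg_countable [CompleteSpace E'] {ι : Type*} [Countable ι]
    {Ω : Set E} {f : E → E'} {F : E → (E →L[ℝ] E')} (hΩ : IsOpen Ω) (hf : ContinuousOn f Ω)
    (hF : LocallyIntegrableOn F Ω μ) (hw : WeakDeriv μ Ω f F) (a v : ι → E) :
    ∀ᵐ x ∂μ, ∀ i, (∀ s ∈ Icc (0 : ℝ) 1, x + a i + s • v i ∈ Ω) → GoodSeg f F (x + a i) (v i) := by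
  rw [ae_all_iff]
  intro i
  have h := ae_goodSeg (μ := μ) hΩ hf hF hw (v i)
  exact (measurePreserving_add_right μ (a i)).quasiMeasurePreserving.ae h

namespace GoodSeg

variable {f : E → E'} {F : E → (E →L[ℝ] E')} {x v : E}

omit [FiniteDimensional ℝ E] [MeasurableSpace E] [BorelSpace E] in
/-- Sub-segments of good segments. -/
theorem diff (h : GoodSeg f F x v) {t t' : ℝ} (ht : t ∈ Icc (0 : ℝ) 1) (ht' : t' ∈ Icc (0 : ℝ) 1) :
    f (x + t' • v) - f (x + t • v) = ∫ s in t..t', F (x + s • v) v := by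
  have hsub : ∀ a ∈ Icc (0 : ℝ) 1, ∀ b ∈ Icc (0 : ℝ) 1,
      IntervalIntegrable (fun s : ℝ => F (x + s • v) v) volume a b := by
    intro a ha b hb
    refine h.1.mono_set ?_
    rw [uIcc_of_le zero_le_one]
    exact uIcc_subset_Icc ha hb
  have h0 : (0 : ℝ) ∈ Icc (0 : ℝ) 1 := ⟨le_rfl, zero_le_one⟩
  rw [h.2 t' ht', h.2 t ht, add_sub_add_left_eq_sub,
    intervalIntegral.integral_interval_sub_left (hsub 0 h0 t' ht') (hsub 0 h0 t ht)]

omit [FiniteDimensional ℝ E] [MeasurableSpace E] [BorelSpace E] in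
theorem integrableOn (h : GoodSeg f F x v) : IntegrableOn (fun s : ℝ => F (x + s • v) v)
    (Ioc 0 1) := by
  have := h.1
  rwa [intervalIntegrable_iff_integrableOn_Ioc_of_le zero_le_one] at this

omit [FiniteDimensional ℝ E] [MeasurableSpace E] [BorelSpace E] in
/-- Distance to an affine map along a good segment. -/
theorem enorm_sub_le [CompleteSpace E'] (h : GoodSeg f F x v) (A : E →L[ℝ] E') {t t' : ℝ}
    (ht : t ∈ Icc (0 : ℝ) 1) (ht' : t' ∈ Icc (0 : ℝ) 1) :
    ‖f (x + t' • v) - f (x + t • v) - A ((t' - t) • v)‖ₑ ≤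
      ∫⁻ s in Ioc (0 : ℝ) 1, ‖F (x + s • v) v - A v‖ₑ := by
  have hi : IntervalIntegrable (fun s : ℝ => F (x + s • v) v) volume t t' := by
    refine h.1.mono_set ?_
    rw [uIcc_of_le zero_le_one]
    exact uIcc_subset_Icc ht ht'
  have e : f (x + t' • v) - f (x + t • v) - A ((t' - t) • v) =
      ∫ s in t..t', (F (x + s • v) v - A v) := by
    rw [intervalIntegral.integral_sub hi intervalIntegrable_const, h.diff ht ht',
      intervalIntegral.integral_const, map_smul]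
  rw [e]
  have key : ∀ a b : ℝ, a ∈ Icc (0 : ℝ) 1 → b ∈ Icc (0 : ℝ) 1 → a ≤ b →
      ‖∫ s in a..b, (F (x + s • v) v - A v)‖ₑ ≤
      ∫⁻ s in Ioc (0 : ℝ) 1, ‖F (x + s • v) v - A v‖ₑ := by
    intro a b ha hb hab
    rw [intervalIntegral.integral_of_le hab]
    refine (enorm_integral_le_lintegral_enorm _).trans ?_
    exact lintegral_mono_set (Ioc_subset_Ioc ha.1 hb.2)
  rcases le_total t t' with hle | hle
  · exact key t t' ht ht' hle
  · rw [intervalIntegral.integral_symm, enorm_neg]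
    exact key t' t ht' ht hle

end GoodSeg

omit [FiniteDimensional ℝ E] [BorelSpace E] [NormedSpace ℝ E] [μ.IsAddHaarMeasure] in
/-- Jensen's inequality for the unit interval. -/
theorem lintegral_rpow_le {h : ℝ → ℝ≥0∞} {p : ℝ} (hp : 1 ≤ p)
    (hh : AEMeasurable h (volume.restrict (Ioc (0 : ℝ) 1))) :
    (∫⁻ s in Ioc (0 : ℝ) 1, h s) ^ p ≤ ∫⁻ s in Ioc (0 : ℝ) 1, h s ^ p := by
  have hp0 : 0 < p := lt_of_lt_of_le zero_lt_one hp
  rcases eq_or_lt_of_le hp with rfl | hp1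
  · simp only [ENNReal.rpow_one, le_refl]
  · have hpq : p.HolderConjugate (Real.conjExponent p) := Real.HolderConjugate.conjExponent hp1
    have h1 := ENNReal.lintegral_mul_le_Lp_mul_Lq (volume.restrict (Ioc (0 : ℝ) 1)) hpq hh
      (aemeasurable_const (b := (1 : ℝ≥0∞)))
    have h2 : (∫⁻ s in Ioc (0 : ℝ) 1, h s) ≤ (∫⁻ s in Ioc (0 : ℝ) 1, h s ^ p) ^ (1 / p) := by
      simpa using h1
    calc (∫⁻ s in Ioc (0 : ℝ) 1, h s) ^ p
        ≤ ((∫⁻ s in Ioc (0 : ℝ) 1, h s ^ p) ^ (1 / p)) ^ p := ENNReal.rpow_le_rpow h2 hp0.le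
      _ = _ := by
        rw [← ENNReal.rpow_mul, one_div, inv_mul_cancel₀ hp0.ne', ENNReal.rpow_one]


/-! ### Averages over translations -/

theorem aemeasurable_shear {k : E → ℝ≥0∞} (hk : AEMeasurable k μ) (a v : E) :
    AEMeasurable (fun p : E × ℝ => k (p.1 + a + p.2 • v))
      (μ.prod (volume.restrict (Ioc (0 : ℝ) 1))) := by
  have h1 : AEMeasurable (fun p : ℝ × E => k p.2)
      ((volume.restrict (Ioc (0 : ℝ) 1)).prod μ) := hk.comp_snd
  have h2 := (measurePreserving_shear (μ := μ) v (volume.restrict (Ioc (0 : ℝ) 1)))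
  have h3 : AEMeasurable (fun p : ℝ × E => k (p.2 + p.1 • v))
      ((volume.restrict (Ioc (0 : ℝ) 1)).prod μ) :=
    h1.comp_quasiMeasurePreserving h2.quasiMeasurePreserving
  have h4 : AEMeasurable (fun p : E × ℝ => k (p.1 + p.2 • v))
      (μ.prod (volume.restrict (Ioc (0 : ℝ) 1))) := h3.prod_swap
  have h5 : MeasurePreserving (fun p : E × ℝ => (p.1 + a, p.2))
      (μ.prod (volume.restrict (Ioc (0 : ℝ) 1))) (μ.prod (volume.restrict (Ioc (0 : ℝ) 1))) :=
    (measurePreserving_add_right μ a).prod (MeasurePreserving.id _)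
  exact h4.comp_quasiMeasurePreserving h5.quasiMeasurePreserving

theorem aemeasurable_segAvg {k : E → ℝ≥0∞} (hk : AEMeasurable k μ) (a v : E) :
    AEMeasurable (fun x : E => ∫⁻ s in Ioc (0 : ℝ) 1, k (x + a + s • v)) μ :=
  (aemeasurable_shear hk a v).lintegral_prod_right'

/-- The average over the translations of the average over a segment. -/
theorem lintegral_segAvg_le {k : E → ℝ≥0∞} (hk : AEMeasurable k μ) {B T : Set E}
    (hB : MeasurableSet B) (a v : E) (h : ∀ x ∈ B, ∀ s ∈ Icc (0 : ℝ) 1, x + a + s • v ∈ T) :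
    ∫⁻ x in B, (∫⁻ s in Ioc (0 : ℝ) 1, k (x + a + s • v)) ∂μ ≤ ∫⁻ y in T, k y ∂μ := by
  have hr : AEMeasurable (fun p : E × ℝ => k (p.1 + a + p.2 • v))
      ((μ.restrict B).prod (volume.restrict (Ioc (0 : ℝ) 1))) := by
    refine (aemeasurable_shear hk a v).mono_measure ?_
    have e : (μ.restrict B).prod (volume.restrict (Ioc (0 : ℝ) 1)) =
        (μ.prod (volume.restrict (Ioc (0 : ℝ) 1))).restrict (B ×ˢ univ) := by
      rw [← Measure.prod_restrict, Measure.restrict_univ]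
    rw [e]
    exact Measure.restrict_le_self
  rw [lintegral_lintegral_swap (f := fun x s => k (x + a + s • v)) hr]
  have key : ∀ s ∈ Ioc (0 : ℝ) 1, ∫⁻ x in B, k (x + a + s • v) ∂μ ≤ ∫⁻ y in T, k y ∂μ := by
    intro s hs
    have hmp : MeasurePreserving (fun x : E => x + (a + s • v)) μ μ :=
      measurePreserving_add_right μ _
    have hme : MeasurableEmbedding (fun x : E => x + (a + s • v)) :=
      (MeasurableEquiv.addRight (a + s • v)).measurableEmbedding
    calc ∫⁻ x in B, k (x + a + s • v) ∂μ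
        = ∫⁻ x in B, k (x + (a + s • v)) ∂μ := by simp only [add_assoc]
      _ ≤ ∫⁻ x in (fun x : E => x + (a + s • v)) ⁻¹' T, k (x + (a + s • v)) ∂μ := by
          refine lintegral_mono_set ?_
          intro x hx
          have := h x hx s ⟨hs.1.le, hs.2⟩
          rw [add_assoc] at this
          exact this
      _ = ∫⁻ y in T, k y ∂μ := hmp.setLIntegral_comp_preimage_emb hme k T
  calc ∫⁻ s in Ioc (0 : ℝ) 1, (∫⁻ x in B, k (x + a + s • v) ∂μ)
      ≤ ∫⁻ _ in Ioc (0 : ℝ) 1, (∫⁻ y in T, k y ∂μ) := by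
        refine setLIntegral_mono' measurableSet_Ioc fun s hs => key s hs
    _ = ∫⁻ y in T, k y ∂μ := by
        rw [setLIntegral_const, Real.volume_Ioc]
        simp

/-- Choice of a point at which finitely many functions do not exceed a multiple of their average,
outside a null set. -/
theorem exists_good_point {α : Type*} [MeasurableSpace α] {ν : Measure α} {B : Set α}
    (hB0 : ν B ≠ 0) (hBt : ν B ≠ ⊤) (hBm : MeasurableSet B) {ι : Type*} (J : Finset ι) (Φ : ι → α → ℝ≥0∞)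
    (hΦ : ∀ j ∈ J, AEMeasurable (Φ j) (ν.restrict B)) {P : α → Prop} (hP : ∀ᵐ x ∂ν, x ∈ B → P x) :
    ∃ x ∈ B, P x ∧ ∀ j ∈ J, Φ j x * ν B ≤ J.card * ∫⁻ y in B, Φ j y ∂ν := by
  classical
  set I : ι → ℝ≥0∞ := fun j => ∫⁻ y in B, Φ j y ∂ν with hI
  have hνB : ν.restrict B ≠ 0 := by
    rw [Ne, Measure.restrict_eq_zero]
    exact hB0
  have hm : AEMeasurable (fun x => ∑ j ∈ J, Φ j x * (I j)⁻¹) (ν.restrict B) :=
    Finset.aemeasurable_fun_sum J fun j hj => (hΦ j hj).mul_const _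
  have hz : ∀ᵐ x ∂(ν.restrict B), ∀ j ∈ J, I j = 0 → Φ j x = 0 := by
    refine (Finset.eventually_all J).2 ?_
    intro j hj
    by_cases h0 : I j = 0
    · have := (lintegral_eq_zero_iff' (hΦ j hj)).1 h0
      filter_upwards [this] with x hx _
      exact hx
    · exact ae_of_all _ fun x h => absurd h h0
  have hPB : ∀ᵐ x ∂(ν.restrict B), x ∈ B ∧ P x := by
    rw [ae_restrict_iff' hBm]
    filter_upwards [hP] with x hx hxB
    exact ⟨hxB, hx hxB⟩
  have hN : (ν.restrict B) {x | ¬ ((∀ j ∈ J, I j = 0 → Φ j x = 0) ∧ (x ∈ B ∧ P x))} = 0 :=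
    ae_iff.1 (hz.and hPB)
  have hfin : IsFiniteMeasure (ν.restrict B) := ⟨by
    rw [Measure.restrict_apply_univ]
    exact lt_top_iff_ne_top.2 hBt⟩
  obtain ⟨x, hxN, hx⟩ := exists_notMem_null_le_laverage hνB hm hN
  simp only [mem_setOf_eq, not_not] at hxN
  refine ⟨x, hxN.2.1, hxN.2.2, fun j hj => ?_⟩
  by_cases h0 : I j = 0
  · rw [hxN.1 j hj h0, zero_mul]
    exact zero_le
  by_cases ht : I j = ⊤
  · have : ((J.card : ℕ) : ℝ≥0∞) ≠ 0 := by
      rw [Nat.cast_ne_zero]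
      exact Finset.card_ne_zero_of_mem hj
    change _ ≤ (J.card : ℝ≥0∞) * I j
    rw [ht, ENNReal.mul_top this]
    exact le_top
  have hsum : ∫⁻ y in B, ∑ j ∈ J, Φ j y * (I j)⁻¹ ∂ν ≤ J.card := by
    rw [lintegral_finsetSum' _ fun j hj => (hΦ j hj).mul_const _]
    calc ∑ j ∈ J, ∫⁻ y in B, Φ j y * (I j)⁻¹ ∂ν ≤ ∑ _j ∈ J, (1 : ℝ≥0∞) := by
          refine Finset.sum_le_sum fun j hj => ?_
          rw [lintegral_mul_const'' _ (hΦ j hj)]
          exact ENNReal.mul_inv_le_one _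
      _ = J.card := by simp
  have h1 : Φ j x * (I j)⁻¹ ≤ J.card / ν B := by
    calc Φ j x * (I j)⁻¹ ≤ ∑ j ∈ J, Φ j x * (I j)⁻¹ :=
          Finset.single_le_sum (f := fun j => Φ j x * (I j)⁻¹) (fun _ _ => zero_le) hj
      _ ≤ _ := hx
      _ ≤ _ := by
          rw [setLAverage_eq]
          exact ENNReal.div_le_div_right hsum _
  calc Φ j x * ν B = (Φ j x * (I j)⁻¹) * I j * ν B := by
        rw [mul_assoc (Φ j x), ENNReal.inv_mul_cancel h0 ht, mul_one]
    _ ≤ (J.card / ν B) * I j * ν B := by gcongr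
    _ = J.card * I j := by
        rw [mul_right_comm, ENNReal.div_mul_cancel hB0 hBt]


/-- The `p`-th power of the distance of `F` to `A`, cut off outside `T`, is measurable. -/
theorem aemeasurable_pow {Ω T : Set E} {F : E → (E →L[ℝ] E')} (hF : LocallyIntegrableOn F Ω μ)
    (hT : MeasurableSet T) (hTΩ : T ⊆ Ω) (A : E →L[ℝ] E') (p : ℝ) :
    AEMeasurable (T.indicator fun y => ‖F y - A‖ₑ ^ p) μ := by
  rw [aemeasurable_indicator_iff hT]
  have h1 : AEStronglyMeasurable F (μ.restrict T) :=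
    hF.aestronglyMeasurable.mono_measure (Measure.restrict_mono hTΩ le_rfl)
  exact (h1.sub aestronglyMeasurable_const).enorm.pow_const p

/-- **Generic translations.** For a countable pattern of segments `(a l, v l)` and finitely many
weighted functionals there is a translation `x ∈ B` for which all the segments contained in `Ω`
are good and all the functionals are at most `card J` times their average. -/
theorem exists_generic_translation [CompleteSpace E'] {κ : Type*} [Countable κ]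
    {Ω : Set E} {f : E → E'} {F : E → (E →L[ℝ] E')} (hΩ : IsOpen Ω) (hf : ContinuousOn f Ω)
    (hF : LocallyIntegrableOn F Ω μ) (hw : WeakDeriv μ Ω f F) (a v : κ → E)
    {B : Set E} (hB : MeasurableSet B) (hB0 : μ B ≠ 0) (hBt : μ B ≠ ⊤) {ι : Type*} (J : Finset ι)
    (w : ι → κ → ℝ≥0∞) (k : ι → κ → E → ℝ≥0∞) (hk : ∀ j ∈ J, ∀ l, AEMeasurable (k j l) μ)
    (T : ι → κ → Set E)
    (hT : ∀ j ∈ J, ∀ l, ∀ x ∈ B, ∀ s ∈ Icc (0 : ℝ) 1, x + a l + s • v l ∈ T j l)
    {P : E → Prop} (hP : ∀ᵐ x ∂μ, x ∈ B → P x) :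
    ∃ x ∈ B, P x ∧
      (∀ l, (∀ s ∈ Icc (0 : ℝ) 1, x + a l + s • v l ∈ Ω) → GoodSeg f F (x + a l) (v l)) ∧
      ∀ j ∈ J, (∑' l, w j l * ∫⁻ s in Ioc (0 : ℝ) 1, k j l (x + a l + s • v l)) * μ B ≤
        J.card * ∑' l, w j l * ∫⁻ y in T j l, k j l y ∂μ := by
  have hm : ∀ j ∈ J, ∀ l, AEMeasurable
      (fun x : E => w j l * ∫⁻ s in Ioc (0 : ℝ) 1, k j l (x + a l + s • v l)) μ :=
    fun j hj l => (aemeasurable_segAvg (hk j hj l) (a l) (v l)).const_mul _
  have hgood := ae_goodSeg_countable (μ := μ) hΩ hf hF hw a v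
  obtain ⟨x, hxB, hx, hJ⟩ := exists_good_point (ν := μ) hB0 hBt hB J
    (fun j x => ∑' l, w j l * ∫⁻ s in Ioc (0 : ℝ) 1, k j l (x + a l + s • v l))
    (fun j hj => (AEMeasurable.ennreal_tsum fun l => hm j hj l).restrict)
    (P := fun x => P x ∧ ∀ l, (∀ s ∈ Icc (0 : ℝ) 1, x + a l + s • v l ∈ Ω) →
      GoodSeg f F (x + a l) (v l)) (by
      filter_upwards [hP, hgood] with x h1 h2 h3
      exact ⟨h1 h3, h2⟩)
  refine ⟨x, hxB, hx.1, hx.2, fun j hj => (hJ j hj).trans ?_⟩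
  rw [lintegral_tsum fun l => (hm j hj l).restrict]
  gcongr with l
  rw [lintegral_const_mul'' _ (aemeasurable_segAvg (hk j hj l) (a l) (v l)).restrict]
  exact mul_le_mul_right (lintegral_segAvg_le (hk j hj l) hB (a l) (v l) (hT j hj l)) _

end Vale.Agent.P073.HB
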