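import Mathlib.Analysis.BoundedVariation
import Mathlib.MeasureTheory.Function.Jacobian
import Mathlib.MeasureTheory.Integral.IntervalIntegral.LebesgueDifferentiationThm
import Mathlib.Data.Set.Card

/-!
# P073: level sets of absolutely continuous functions of one variable (Banach indicatrix)
-/

namespace Vale.Agent.P073.HB

open MeasureTheory Set Filter Topology
open scoped ENNReal

/-- The increments of `u` on `[0,1]` are bounded by the integrals of `h`. -/
def HasMod {X : Type*} [PseudoEMetricSpace X] (u : ℝ → X) (h : ℝ → ℝ≥0∞) : Prop :=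
  ∀ s ∈ Icc (0 : ℝ) 1, ∀ t ∈ Icc (0 : ℝ) 1, s ≤ t → edist (u s) (u t) ≤ ∫⁻ r in Ioc s t, h r

theorem HasMod.volume_image_le {u : ℝ → ℝ} {h : ℝ → ℝ≥0∞} (hu : HasMod u h) {s t : ℝ}
    (hs : 0 ≤ s) (ht : t ≤ 1) : volume (u '' Icc s t) ≤ ∫⁻ r in Ioc s t, h r := by
  refine (Real.volume_le_diam _).trans ?_
  rw [Metric.ediam_image_le_iff]
  intro a ha b hb
  have ha' : a ∈ Icc (0 : ℝ) 1 := ⟨hs.trans ha.1, ha.2.trans ht⟩
  have hb' : b ∈ Icc (0 : ℝ) 1 := ⟨hs.trans hb.1, hb.2.trans ht⟩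
  rcases le_total a b with hab | hab
  · exact (hu a ha' b hb' hab).trans (lintegral_mono_set (Ioc_subset_Ioc ha.1 hb.2))
  · rw [edist_comm]
    exact (hu b hb' a ha' hab).trans (lintegral_mono_set (Ioc_subset_Ioc hb.1 ha.2))

/-- Dyadic intervals. -/
noncomputable def dI (n i : ℕ) : Set ℝ := Icc ((i : ℝ) / 2 ^ n) (((i : ℝ) + 1) / 2 ^ n)

noncomputable def dJ (n i : ℕ) : Set ℝ := Ioc ((i : ℝ) / 2 ^ n) (((i : ℝ) + 1) / 2 ^ n)

theorem dJ_disjoint (n : ℕ) : Pairwise (Function.onFun Disjoint (dJ n)) := by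
  intro i j hij
  have key : ∀ i j : ℕ, i < j → Disjoint (dJ n i) (dJ n j) := by
    intro i j hij
    rw [Set.disjoint_left]
    rintro x ⟨_, h2⟩ ⟨h3, _⟩
    have h4 : ((i : ℝ) + 1) / 2 ^ n ≤ (j : ℝ) / 2 ^ n := by
      have : ((i : ℝ) + 1) ≤ j := by exact_mod_cast hij
      gcongr
    linarith
  rcases lt_or_gt_of_ne hij with h | h
  · exact key i j h
  · exact (key j i h).symm

open Classical in
/-- The number of dyadic intervals of level `n` contained in `U` which meet the level set. -/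
noncomputable def dN (u : ℝ → ℝ) (U : Set ℝ) (n : ℕ) (y : ℝ) : ℝ≥0∞ :=
  ∑ i ∈ (Finset.range (2 ^ n)).filter (fun i => dI n i ⊆ U), (u '' dI n i).indicator 1 y

theorem div_le_one_of_lt {n i : ℕ} (hi : i < 2 ^ n) : ((i : ℝ) + 1) / 2 ^ n ≤ 1 := by
  rw [div_le_one (by positivity)]
  exact_mod_cast hi

theorem measurable_dN {u : ℝ → ℝ} (hc : ContinuousOn u (Icc 0 1)) (U : Set ℝ) (n : ℕ) :
    Measurable (dN u U n) := by
  classical
  refine Finset.measurable_fun_sum _ fun i hi => ?_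
  rw [Finset.mem_filter, Finset.mem_range] at hi
  refine measurable_one.indicator ?_
  refine (isCompact_Icc.image_of_continuousOn (hc.mono ?_)).measurableSet
  exact Icc_subset_Icc (by positivity) (div_le_one_of_lt hi.1)

theorem lintegral_dN_le {u : ℝ → ℝ} {h : ℝ → ℝ≥0∞} (hc : ContinuousOn u (Icc 0 1))
    (hu : HasMod u h) (U : Set ℝ) (n : ℕ) :
    ∫⁻ y, dN u U n y ≤ ∫⁻ r in U ∩ Ioc 0 1, h r := by
  classical
  unfold dN
  rw [lintegral_finsetSum']
  · calc ∑ i ∈ (Finset.range (2 ^ n)).filter (fun i => dI n i ⊆ U),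
          ∫⁻ y, (u '' dI n i).indicator 1 y
        ≤ ∑ i ∈ (Finset.range (2 ^ n)).filter (fun i => dI n i ⊆ U), ∫⁻ r in dJ n i, h r := by
          refine Finset.sum_le_sum fun i hi => ?_
          rw [Finset.mem_filter, Finset.mem_range] at hi
          refine (lintegral_indicator_one_le _).trans ?_
          exact hu.volume_image_le (by positivity) (div_le_one_of_lt hi.1)
      _ = ∫⁻ r in ⋃ i ∈ (Finset.range (2 ^ n)).filter (fun i => dI n i ⊆ U), dJ n i, h r := by
          rw [lintegral_biUnion_finset]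
          · exact fun i _ j _ hij => dJ_disjoint n hij
          · exact fun i _ => measurableSet_Ioc
      _ ≤ ∫⁻ r in U ∩ Ioc 0 1, h r := by
          refine lintegral_mono_set ?_
          intro x hx
          simp only [mem_iUnion, Finset.mem_filter, Finset.mem_range, exists_prop] at hx
          obtain ⟨i, ⟨hi, hiU⟩, hx1, hx2⟩ := hx
          refine ⟨hiU ⟨hx1.le, hx2⟩, lt_of_le_of_lt (by positivity) hx1,
            hx2.trans (div_le_one_of_lt hi)⟩
  · intro i hi
    rw [Finset.mem_filter, Finset.mem_range] at hi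
    refine (measurable_one.indicator ?_).aemeasurable
    refine (isCompact_Icc.image_of_continuousOn (hc.mono ?_)).measurableSet
    exact Icc_subset_Icc (by positivity) (div_le_one_of_lt hi.1)


/-- The index of a dyadic interval containing `x ∈ [0,1]`. -/
noncomputable def dIdx (n : ℕ) (x : ℝ) : ℕ := min ⌊x * 2 ^ n⌋₊ (2 ^ n - 1)

theorem dIdx_lt (n : ℕ) (x : ℝ) : dIdx n x < 2 ^ n := by
  have : 0 < 2 ^ n := by positivity
  unfold dIdx
  omega

theorem mem_dI (n : ℕ) {x : ℝ} (hx : x ∈ Icc (0 : ℝ) 1) : x ∈ dI n (dIdx n x) := by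
  have h2 : (0 : ℝ) < 2 ^ n := by positivity
  have h3 : 0 ≤ x * 2 ^ n := mul_nonneg hx.1 h2.le
  have hfl := Nat.floor_le h3
  have hfu := Nat.lt_floor_add_one (x * 2 ^ n)
  unfold dI dIdx
  rw [mem_Icc, div_le_iff₀ h2, le_div_iff₀ h2]
  rcases le_or_gt ⌊x * 2 ^ n⌋₊ (2 ^ n - 1) with h | h
  · rw [min_eq_left h]
    exact ⟨hfl, hfu.le⟩
  · rw [min_eq_right h.le]
    have h1 : 1 ≤ 2 ^ n := Nat.one_le_two_pow
    have e : ((2 ^ n - 1 : ℕ) : ℝ) = 2 ^ n - 1 := by
      rw [Nat.cast_sub h1]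
      simp
    rw [e]
    have h4 : ((2 ^ n - 1 : ℕ) : ℝ) + 1 ≤ (⌊x * 2 ^ n⌋₊ : ℝ) := by exact_mod_cast h
    rw [e] at h4
    have h5 : x * 2 ^ n ≤ 2 ^ n := by
      calc x * 2 ^ n ≤ 1 * 2 ^ n := by gcongr; exact hx.2
        _ = 2 ^ n := one_mul _
    constructor <;> linarith

theorem dI_width {n i : ℕ} {x y : ℝ} (hx : x ∈ dI n i) (hy : y ∈ dI n i) :
    |x - y| ≤ 1 / 2 ^ n := by
  unfold dI at hx hy
  rw [mem_Icc, add_div] at hx hy
  rw [abs_le]
  constructor <;> linarith [hx.1, hx.2, hy.1, hy.2]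

theorem card_le_dN {u : ℝ → ℝ} {U : Set ℝ} (hU : IsOpen U) {y : ℝ} (F : Finset ℝ)
    (hF : ∀ x ∈ F, x ∈ U ∧ x ∈ Icc (0 : ℝ) 1 ∧ u x = y) :
    ∀ᶠ n in atTop, (F.card : ℝ≥0∞) ≤ dN u U n y := by
  classical
  -- intervals around the points are contained in `U`
  have h1 : ∀ᶠ n : ℕ in atTop, ∀ x ∈ F, dI n (dIdx n x) ⊆ U := by
    rw [Filter.eventually_all_finset]
    intro x hx
    obtain ⟨ε, hε, hb⟩ := Metric.isOpen_iff.1 hU x (hF x hx).1
    have ht : Tendsto (fun n : ℕ => (1 : ℝ) / 2 ^ n) atTop (𝓝 0) := by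
      simpa using tendsto_pow_atTop_nhds_zero_of_lt_one (r := (1 / 2 : ℝ)) (by norm_num) (by norm_num)
    filter_upwards [ht.eventually (gt_mem_nhds hε)] with n hn z hz
    apply hb
    rw [Metric.mem_ball, Real.dist_eq]
    exact (dI_width hz (mem_dI n (hF x hx).2.1)).trans_lt hn
  -- distinct points are in distinct intervals
  have h2 : ∀ᶠ n : ℕ in atTop, ∀ x ∈ F, ∀ z ∈ F, x ≠ z → dIdx n x ≠ dIdx n z := by
    rw [Filter.eventually_all_finset]
    intro x hx
    rw [Filter.eventually_all_finset]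
    intro z hz
    by_cases hxz : x = z
    · exact Eventually.of_forall fun n h => absurd hxz h
    have hpos : 0 < |x - z| := abs_pos.2 (sub_ne_zero.2 hxz)
    have ht : Tendsto (fun n : ℕ => (1 : ℝ) / 2 ^ n) atTop (𝓝 0) := by
      simpa using tendsto_pow_atTop_nhds_zero_of_lt_one (r := (1 / 2 : ℝ)) (by norm_num) (by norm_num)
    filter_upwards [ht.eventually (gt_mem_nhds hpos)] with n hn _ he
    have hzm := mem_dI n (hF z hz).2.1
    rw [← he] at hzm
    exact absurd (dI_width (mem_dI n (hF x hx).2.1) hzm) (not_le.2 hn)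
  filter_upwards [h1, h2] with n hn1 hn2
  have hinj : Set.InjOn (dIdx n) F := by
    intro x hx z hz he
    by_contra hne
    exact hn2 x hx z hz hne he
  have hsub : F.image (dIdx n) ⊆ (Finset.range (2 ^ n)).filter (fun i => dI n i ⊆ U) := by
    intro i hi
    obtain ⟨x, hx, rfl⟩ := Finset.mem_image.1 hi
    exact Finset.mem_filter.2 ⟨Finset.mem_range.2 (dIdx_lt n x), hn1 x hx⟩
  calc (F.card : ℝ≥0∞) = ((F.image (dIdx n)).card : ℝ≥0∞) := by
        rw [Finset.card_image_of_injOn hinj]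
    _ = ∑ i ∈ F.image (dIdx n), (1 : ℝ≥0∞) := by simp
    _ ≤ ∑ i ∈ F.image (dIdx n), (u '' dI n i).indicator 1 y := by
        refine Finset.sum_le_sum fun i hi => ?_
        obtain ⟨x, hx, rfl⟩ := Finset.mem_image.1 hi
        rw [indicator_of_mem]
        · simp
        · exact ⟨x, mem_dI n (hF x hx).2.1, (hF x hx).2.2⟩
    _ ≤ dN u U n y := Finset.sum_le_sum_of_subset hsub

/-- The level set in `U`. -/
def lev (u : ℝ → ℝ) (U : Set ℝ) (y : ℝ) : Set ℝ := {x | x ∈ U ∧ x ∈ Icc (0 : ℝ) 1 ∧ u x = y}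

theorem encard_lev_le {u : ℝ → ℝ} {U : Set ℝ} (hU : IsOpen U) (y : ℝ) :
    ((lev u U y).encard : ℝ≥0∞) ≤ liminf (fun n => dN u U n y) atTop := by
  have key : ∀ F : Finset ℝ, (F : Set ℝ) ⊆ lev u U y →
      (F.card : ℝ≥0∞) ≤ liminf (fun n => dN u U n y) atTop := by
    intro F hF
    exact le_liminf_of_le (by isBoundedDefault) (card_le_dN hU F fun x hx => hF hx)
  by_cases hfin : (lev u U y).Finite
  · have := key hfin.toFinset (by simp)
    rw [hfin.encard_eq_coe_toFinset_card]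
    simpa using this
  · have h2 : ∀ k : ℕ, (k : ℝ≥0∞) ≤ liminf (fun n => dN u U n y) atTop := by
      intro k
      obtain ⟨F, hF, hk⟩ := Set.Infinite.exists_subset_card_eq hfin k
      rw [← hk]
      exact key F hF
    have h3 : liminf (fun n => dN u U n y) atTop = ⊤ := ENNReal.eq_top_of_forall_nnreal_le (by
      intro r
      obtain ⟨k, hk⟩ := exists_nat_ge r
      exact le_trans (by exact_mod_cast hk) (h2 k))
    rw [h3]
    exact le_top

/-- **Banach indicatrix inequality.** -/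
theorem lintegral_encard_lev_le {u : ℝ → ℝ} {h : ℝ → ℝ≥0∞} (hc : ContinuousOn u (Icc 0 1))
    (hu : HasMod u h) {U : Set ℝ} (hU : IsOpen U) :
    ∫⁻ y, ((lev u U y).encard : ℝ≥0∞) ≤ ∫⁻ r in U ∩ Ioc 0 1, h r := by
  calc ∫⁻ y, ((lev u U y).encard : ℝ≥0∞)
      ≤ ∫⁻ y, liminf (fun n => dN u U n y) atTop := lintegral_mono fun y => encard_lev_le hU y
    _ ≤ liminf (fun n => ∫⁻ y, dN u U n y) atTop :=
        lintegral_liminf_le fun n => measurable_dN hc U n
    _ ≤ ∫⁻ r in U ∩ Ioc 0 1, h r := by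
        refine liminf_le_of_le (by isBoundedDefault) ?_
        intro b hb
        obtain ⟨n, hn⟩ := hb.exists
        exact hn.trans (lintegral_dN_le hc hu U n)

/-- Almost every level set is finite. -/
theorem ae_finite_lev {u : ℝ → ℝ} {h : ℝ → ℝ≥0∞} (hc : ContinuousOn u (Icc 0 1))
    (hu : HasMod u h) (hh : ∫⁻ r in Ioc (0 : ℝ) 1, h r ≠ ⊤) :
    ∀ᵐ y, {x | x ∈ Icc (0 : ℝ) 1 ∧ u x = y}.Finite := by
  have hint : ∫⁻ y, liminf (fun n => dN u univ n y) atTop ≠ ⊤ := by
    refine ne_top_of_le_ne_top hh ?_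
    calc ∫⁻ y, liminf (fun n => dN u univ n y) atTop
        ≤ liminf (fun n => ∫⁻ y, dN u univ n y) atTop :=
          lintegral_liminf_le fun n => measurable_dN hc univ n
      _ ≤ ∫⁻ r in univ ∩ Ioc 0 1, h r := by
          refine liminf_le_of_le (by isBoundedDefault) ?_
          intro b hb
          obtain ⟨n, hn⟩ := hb.exists
          exact hn.trans (lintegral_dN_le hc hu univ n)
      _ = ∫⁻ r in Ioc (0 : ℝ) 1, h r := by rw [univ_inter]
  have hm : Measurable fun y => liminf (fun n => dN u univ n y) atTop :=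
    Measurable.liminf fun n => measurable_dN hc univ n
  filter_upwards [ae_lt_top hm hint] with y hy
  have h1 := (encard_lev_le (u := u) isOpen_univ y).trans_lt hy
  have h2 : lev u univ y = {x | x ∈ Icc (0 : ℝ) 1 ∧ u x = y} := by
    ext x
    simp [lev]
  rw [← h2]
  rw [← Set.encard_lt_top_iff]
  by_contra hcon
  rw [not_lt, top_le_iff] at hcon
  rw [hcon] at h1
  simp at h1


/-- The measure with density `h` on `(0,1]`. -/
noncomputable def hMeas (h : ℝ → ℝ≥0∞) : Measure ℝ := (volume.restrict (Ioc (0 : ℝ) 1)).withDensity h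

theorem hMeas_apply (h : ℝ → ℝ≥0∞) {A : Set ℝ} (hA : MeasurableSet A) :
    hMeas h A = ∫⁻ r in A ∩ Ioc 0 1, h r := by
  rw [hMeas, withDensity_apply _ hA, Measure.restrict_restrict hA]

theorem image_le {u : ℝ → ℝ} {h : ℝ → ℝ≥0∞} (hc : ContinuousOn u (Icc 0 1))
    (hu : HasMod u h) {U : Set ℝ} (hU : IsOpen U) {A : Set ℝ} (hAU : A ⊆ U)
    (hA : A ⊆ Icc 0 1) : volume (u '' A) ≤ hMeas h U := by
  have hm : Measurable fun y => liminf (fun n => dN u U n y) atTop :=
    Measurable.liminf fun n => measurable_dN hc U n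
  calc volume (u '' A) ≤ volume {y | 1 ≤ liminf (fun n => dN u U n y) atTop} := by
        refine measure_mono ?_
        rintro _ ⟨x, hx, rfl⟩
        have := le_liminf_of_le (by isBoundedDefault) (card_le_dN (u := u) hU (y := u x) {x} (by
          intro z hz
          rw [Finset.mem_singleton] at hz
          subst hz
          exact ⟨hAU hx, hA hx, rfl⟩))
        simpa using this
    _ = 1 * volume {y | 1 ≤ liminf (fun n => dN u U n y) atTop} := (one_mul _).symm
    _ ≤ ∫⁻ y, liminf (fun n => dN u U n y) atTop := mul_meas_ge_le_lintegral hm 1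
    _ ≤ liminf (fun n => ∫⁻ y, dN u U n y) atTop :=
        lintegral_liminf_le fun n => measurable_dN hc U n
    _ ≤ ∫⁻ r in U ∩ Ioc 0 1, h r := by
        refine liminf_le_of_le (by isBoundedDefault) ?_
        intro b hb
        obtain ⟨n, hn⟩ := hb.exists
        exact hn.trans (lintegral_dN_le hc hu U n)
    _ = hMeas h U := (hMeas_apply h hU.measurableSet).symm

theorem isFiniteMeasure_hMeas {h : ℝ → ℝ≥0∞} (hh : ∫⁻ r in Ioc (0 : ℝ) 1, h r ≠ ⊤) :
    IsFiniteMeasure (hMeas h) := by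
  constructor
  rw [hMeas_apply h MeasurableSet.univ, univ_inter]
  exact lt_top_iff_ne_top.2 hh

/-- The image of a null set of the measure `h dx` is a null set. -/
theorem image_null {u : ℝ → ℝ} {h : ℝ → ℝ≥0∞} (hc : ContinuousOn u (Icc 0 1))
    (hu : HasMod u h) (hh : ∫⁻ r in Ioc (0 : ℝ) 1, h r ≠ ⊤) {A : Set ℝ} (hA : A ⊆ Icc 0 1)
    (hn : hMeas h A = 0) : volume (u '' A) = 0 := by
  have := isFiniteMeasure_hMeas hh
  by_contra hcon
  have hpos : 0 < volume (u '' A) := pos_iff_ne_zero.2 hcon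
  obtain ⟨U, hAU, hU, hlt⟩ := A.exists_isOpen_lt_of_lt (μ := hMeas h) (volume (u '' A)) (by rwa [hn])
  exact absurd (image_le hc hu hU hAU hA) (not_le.2 hlt)

theorem image_null' {u : ℝ → ℝ} {h : ℝ → ℝ≥0∞} (hc : ContinuousOn u (Icc 0 1))
    (hu : HasMod u h) (hh : ∫⁻ r in Ioc (0 : ℝ) 1, h r ≠ ⊤) {A : Set ℝ} (hA : A ⊆ Icc 0 1)
    (hn : volume A = 0) : volume (u '' A) = 0 := by
  refine image_null hc hu hh hA ?_
  refine withDensity_absolutelyContinuous _ _ ?_
  exact measure_mono_null (by exact le_rfl) (le_antisymm ((Measure.restrict_apply_le _ _).trans hn.le) zero_le)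

theorem HasMod.boundedVariationOn {u : ℝ → ℝ} {h : ℝ → ℝ≥0∞}
    (hu : HasMod u h) (hh : ∫⁻ r in Ioc (0 : ℝ) 1, h r ≠ ⊤) : BoundedVariationOn u (Icc 0 1) := by
  refine ne_top_of_le_ne_top hh ?_
  refine iSup_le ?_
  rintro ⟨n, p, hp, hps⟩
  have key : ∀ n : ℕ, ∑ i ∈ Finset.range n, edist (u (p (i + 1))) (u (p i)) ≤
      ∫⁻ r in Ioc (p 0) (p n), h r := by
    intro n
    induction n with
    | zero => simp
    | succ n ih =>
      rw [Finset.sum_range_succ]
      calc _ ≤ (∫⁻ r in Ioc (p 0) (p n), h r) + ∫⁻ r in Ioc (p n) (p (n + 1)), h r := by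
            refine add_le_add ih ?_
            rw [edist_comm]
            exact hu _ (hps n) _ (hps (n + 1)) (hp (Nat.le_succ n))
        _ = ∫⁻ r in Ioc (p 0) (p n) ∪ Ioc (p n) (p (n + 1)), h r := by
            rw [lintegral_union measurableSet_Ioc]
            exact Set.Ioc_disjoint_Ioc_of_le le_rfl
        _ ≤ ∫⁻ r in Ioc (p 0) (p (n + 1)), h r := by
            refine lintegral_mono_set ?_
            refine union_subset (Ioc_subset_Ioc_right (hp (Nat.le_succ n))) ?_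
            exact Ioc_subset_Ioc_left (hp (Nat.zero_le n))
  refine (key n).trans (lintegral_mono_set (Ioc_subset_Ioc (hps 0).1 (hps n).2))


/-- **Almost every level is crossed finitely often and transversally.** -/
theorem ae_crossing {u : ℝ → ℝ} {h : ℝ → ℝ≥0∞} (hc : ContinuousOn u (Icc 0 1))
    (hu : HasMod u h) (hh : ∫⁻ r in Ioc (0 : ℝ) 1, h r ≠ ⊤) :
    ∀ᵐ y, {x | x ∈ Icc (0 : ℝ) 1 ∧ u x = y}.Finite ∧
      ∀ x ∈ Icc (0 : ℝ) 1, u x = y → x ∈ Ioo (0 : ℝ) 1 ∧ ∃ d, d ≠ 0 ∧ HasDerivAt u d x := by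
  have hBV := hu.boundedVariationOn hh
  have hdiff : ∀ᵐ x, x ∈ Icc (0 : ℝ) 1 → DifferentiableAt ℝ u x := by
    have := BoundedVariationOn.ae_differentiableAt_of_mem_uIcc (f := u) (a := 0) (b := 1) (by
      rwa [uIcc_of_le zero_le_one])
    rwa [uIcc_of_le zero_le_one] at this
  set A0 : Set ℝ := {x | x ∈ Icc (0 : ℝ) 1 ∧ ¬ DifferentiableAt ℝ u x} ∪ {0, 1} with hA0
  have hA0n : volume A0 = 0 := by
    rw [hA0, measure_union_null_iff]
    refine ⟨?_, (Set.toFinite _).measure_zero _⟩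
    rw [ae_iff] at hdiff
    refine measure_mono_null ?_ hdiff
    rintro x ⟨h1, h2⟩
    simp only [mem_setOf_eq, Classical.not_imp]
    exact ⟨h1, h2⟩
  have hA0s : A0 ⊆ Icc 0 1 := by
    rintro x (hx | hx | hx)
    · exact hx.1
    · rw [hx]; exact ⟨le_rfl, zero_le_one⟩
    · rw [mem_singleton_iff] at hx
      rw [hx]; exact ⟨zero_le_one, le_rfl⟩
  have hi0 : volume (u '' A0) = 0 := image_null' hc hu hh hA0s hA0n
  set A1 : Set ℝ := {x | HasDerivAt u 0 x} with hA1
  have hi1 : volume (u '' A1) = 0 := by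
    refine addHaar_image_eq_zero_of_det_fderivWithin_eq_zero volume (f' := fun _ => 0) ?_ ?_
    · intro x hx
      have h1 : HasDerivAt u 0 x := hx
      have h2 : HasFDerivAt u (0 : ℝ →L[ℝ] ℝ) x := by simpa using h1.hasFDerivAt
      exact h2.hasFDerivWithinAt
    · intro x _
      simp
  have h0 : ∀ᵐ y, y ∉ u '' A0 := measure_eq_zero_iff_ae_notMem.1 hi0
  have h1 : ∀ᵐ y, y ∉ u '' A1 := measure_eq_zero_iff_ae_notMem.1 hi1
  filter_upwards [ae_finite_lev hc hu hh, h0, h1] with y hy hy0 hy1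
  refine ⟨hy, fun x hx hxy => ?_⟩
  have hx0 : x ∉ A0 := fun h => hy0 ⟨x, h, hxy⟩
  have hx1 : x ∉ A1 := fun h => hy1 ⟨x, h, hxy⟩
  simp only [hA0, mem_union, mem_setOf_eq, mem_insert_iff, mem_singleton_iff, not_or, not_and,
    not_not] at hx0
  obtain ⟨ha, hb, hcc⟩ := hx0
  refine ⟨⟨lt_of_le_of_ne hx.1 (Ne.symm hb), lt_of_le_of_ne hx.2 hcc⟩, deriv u x, ?_, (ha hx).hasDerivAt⟩
  intro hd
  apply hx1
  have := (ha hx).hasDerivAt
  rw [hd] at this
  exact this

/-- At a point where the derivative is positive the function passes from below to above. -/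
theorem sign_change_pos {u : ℝ → ℝ} {x d : ℝ} (hd : 0 < d) (h : HasDerivAt u d x) :
    ∃ δ > 0, (∀ z, x - δ < z → z < x → u z < u x) ∧ ∀ z, x < z → z < x + δ → u x < u z := by
  have h1 := (hasDerivAt_iff_tendsto_slope.1 h).eventually (lt_mem_nhds hd)
  rw [eventually_nhdsWithin_iff, Metric.eventually_nhds_iff] at h1
  obtain ⟨δ, hδ, hb⟩ := h1
  refine ⟨δ, hδ, fun z h2 h3 => ?_, fun z h2 h3 => ?_⟩
  · have := hb (y := z) (by rw [Real.dist_eq, abs_lt]; constructor <;> linarith) h3.ne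
    rw [slope_def_field, div_pos_iff] at this
    rcases this with ⟨_, h5⟩ | ⟨h4, _⟩
    · linarith
    · linarith
  · have := hb (y := z) (by rw [Real.dist_eq, abs_lt]; constructor <;> linarith) h2.ne'
    rw [slope_def_field, div_pos_iff] at this
    rcases this with ⟨h4, _⟩ | ⟨_, h5⟩
    · linarith
    · linarith

/-- At a point where the derivative is not zero the function minus its value changes sign. -/
theorem sign_change {u : ℝ → ℝ} {x d : ℝ} (hd : d ≠ 0) (h : HasDerivAt u d x) :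
    ∃ δ > 0, ((∀ z, x - δ < z → z < x → u z < u x) ∧ ∀ z, x < z → z < x + δ → u x < u z) ∨
      ((∀ z, x - δ < z → z < x → u x < u z) ∧ ∀ z, x < z → z < x + δ → u z < u x) := by
  rcases lt_or_gt_of_ne hd with hd | hd
  · obtain ⟨δ, hδ, h1, h2⟩ := sign_change_pos (u := fun z => - u z) (d := -d) (by linarith) h.neg
    exact ⟨δ, hδ, Or.inr ⟨fun z a b => by linarith [h1 z a b], fun z a b => by linarith [h2 z a b]⟩⟩
  · obtain ⟨δ, hδ, h1, h2⟩ := sign_change_pos hd h
    exact ⟨δ, hδ, Or.inl ⟨h1, h2⟩⟩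

end Vale.Agent.P073.HB
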