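import Vale.Agent.P073.HB.Acl2
import Vale.Agent.P073.HB.Acl3

/-!
# P073: levels of Lipschitz functions of a Sobolev map along good segments
-/

namespace Vale.Agent.P073.HB

open MeasureTheory Set Filter Topology
open scoped ENNReal NNReal

section

variable {E E' : Type*} [NormedAddCommGroup E] [NormedSpace ℝ E] [NormedAddCommGroup E']
  [NormedSpace ℝ E'] {f : E → E'} {F : E → (E →L[ℝ] E')} {x v : E}

theorem GoodSeg.continuousOn (h : GoodSeg f F x v) :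
    ContinuousOn (fun s : ℝ => f (x + s • v)) (Icc 0 1) := by
  have h1 : ContinuousOn (fun t : ℝ => ∫ s in (0 : ℝ)..t, F (x + s • v) v) (Icc 0 1) := by
    have h := intervalIntegral.continuousOn_primitive_interval' h.1
      (left_mem_uIcc (a := (0 : ℝ)) (b := 1))
    rwa [uIcc_of_le zero_le_one] at h
  exact (continuousOn_const.add h1).congr fun t ht => h.2 t ht

theorem GoodSeg.hasMod (h : GoodSeg f F x v) :
    HasMod (fun s : ℝ => f (x + s • v)) (fun r => ‖F (x + r • v) v‖ₑ) := by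
  intro s hs t ht hst
  rw [edist_comm, edist_eq_enorm_sub, h.diff hs ht, intervalIntegral.integral_of_le hst]
  exact enorm_integral_le_lintegral_enorm _

theorem GoodSeg.lintegral_ne_top (h : GoodSeg f F x v) :
    ∫⁻ r in Ioc (0 : ℝ) 1, ‖F (x + r • v) v‖ₑ ≠ ⊤ := h.integrableOn.2.ne

end

theorem HasMod.comp_lipschitz {X Y : Type*} [PseudoEMetricSpace X] [PseudoEMetricSpace Y]
    {u : ℝ → X} {h : ℝ → ℝ≥0∞} (hu : HasMod u h) {φ : X → Y} {K : ℝ≥0} {S : Set X}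
    (hφ : LipschitzOnWith K φ S) (hm : ∀ s ∈ Icc (0 : ℝ) 1, u s ∈ S) :
    HasMod (fun s => φ (u s)) (fun r => K * h r) := by
  intro s hs t ht hst
  refine (hφ (hm s hs) (hm t ht)).trans ?_
  rw [lintegral_const_mul' _ _ ENNReal.coe_ne_top]
  exact mul_le_mul_right (hu s hs t ht hst) _

variable {E E' : Type*} [NormedAddCommGroup E] [NormedSpace ℝ E] [NormedAddCommGroup E']
  [NormedSpace ℝ E'] {f : E → E'} {F : E → (E →L[ℝ] E')} {x v : E}

/-- The data of a Lipschitz function along a good segment. -/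
theorem GoodSeg.scalar (h : GoodSeg f F x v) {φ : E' → ℝ} {K : ℝ≥0} {S : Set E'}
    (hφ : LipschitzOnWith K φ S) (hm : ∀ s ∈ Icc (0 : ℝ) 1, f (x + s • v) ∈ S) :
    ContinuousOn (fun s : ℝ => φ (f (x + s • v))) (Icc 0 1) ∧
    HasMod (fun s : ℝ => φ (f (x + s • v))) (fun r => K * ‖F (x + r • v) v‖ₑ) ∧
    ∫⁻ r in Ioc (0 : ℝ) 1, K * ‖F (x + r • v) v‖ₑ ≠ ⊤ := by
  refine ⟨hφ.continuousOn.comp h.continuousOn hm, h.hasMod.comp_lipschitz hφ hm, ?_⟩
  rw [lintegral_const_mul' _ _ ENNReal.coe_ne_top]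
  exact ENNReal.mul_ne_top ENNReal.coe_ne_top h.lintegral_ne_top

/-- Almost every level of a Lipschitz function of `f` is crossed by a good segment finitely often,
in interior points, with nonzero derivative. -/
theorem GoodSeg.ae_crossing (h : GoodSeg f F x v) {φ : E' → ℝ} {K : ℝ≥0} {S : Set E'}
    (hφ : LipschitzOnWith K φ S) (hm : ∀ s ∈ Icc (0 : ℝ) 1, f (x + s • v) ∈ S) :
    ∀ᵐ c, {s | s ∈ Icc (0 : ℝ) 1 ∧ φ (f (x + s • v)) = c}.Finite ∧
      ∀ s ∈ Icc (0 : ℝ) 1, φ (f (x + s • v)) = c → s ∈ Ioo (0 : ℝ) 1 ∧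
        ∃ d, d ≠ 0 ∧ HasDerivAt (fun s : ℝ => φ (f (x + s • v))) d s := by
  obtain ⟨h1, h2, h3⟩ := h.scalar hφ hm
  exact Vale.Agent.P073.HB.ae_crossing h1 h2 h3

/-- The integral of the number of crossings. -/
theorem GoodSeg.lintegral_crossings_le (h : GoodSeg f F x v) {φ : E' → ℝ} {K : ℝ≥0} {S : Set E'}
    (hφ : LipschitzOnWith K φ S) (hm : ∀ s ∈ Icc (0 : ℝ) 1, f (x + s • v) ∈ S) {U : Set ℝ}
    (hU : IsOpen U) :
    ∫⁻ c, ((lev (fun s : ℝ => φ (f (x + s • v))) U c).encard : ℝ≥0∞) ≤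
      K * ∫⁻ r in U ∩ Ioc (0 : ℝ) 1, ‖F (x + r • v) v‖ₑ := by
  obtain ⟨h1, h2, _⟩ := h.scalar hφ hm
  refine (lintegral_encard_lev_le h1 h2 hU).trans ?_
  rw [lintegral_const_mul' _ _ ENNReal.coe_ne_top]

/-- Almost every origin is good for all the lines of all the grids `a + ρ 2^{-m} ℤ³` (here: for
countably many scales and directions). -/
theorem ae_goodGrid {E : Type*} [NormedAddCommGroup E] [NormedSpace ℝ E] [FiniteDimensional ℝ E]
    [MeasurableSpace E] [BorelSpace E] {μ : Measure E} [μ.IsAddHaarMeasure]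
    {E' : Type*} [NormedAddCommGroup E'] [NormedSpace ℝ E'] [CompleteSpace E']
    {Ω : Set E} {f : E → E'} {F : E → (E →L[ℝ] E')} (hΩ : IsOpen Ω) (hf : ContinuousOn f Ω)
    (hF : LocallyIntegrableOn F Ω μ) (hw : WeakDeriv μ Ω f F) {d : ℕ} (b : Fin d → E) (ρ : ℝ) :
    ∀ᵐ o ∂μ, ∀ (m : ℕ) (z : Fin d → ℤ) (i : Fin d) (n : ℤ),
      (∀ s ∈ Icc (0 : ℝ) 1, o + (ρ / 2 ^ m) • (∑ j, (z j : ℝ) • b j) +
        s • (((n : ℝ) * (ρ / 2 ^ m)) • b i) ∈ Ω) →
      GoodSeg f F (o + (ρ / 2 ^ m) • (∑ j, (z j : ℝ) • b j)) (((n : ℝ) * (ρ / 2 ^ m)) • b i) := by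
  have h := ae_goodSeg_countable (μ := μ) (ι := ℕ × (Fin d → ℤ) × Fin d × ℤ) hΩ hf hF hw
    (fun q => (ρ / 2 ^ q.1) • (∑ j, (q.2.1 j : ℝ) • b j))
    (fun q => ((q.2.2.2 : ℝ) * (ρ / 2 ^ q.1)) • b q.2.2.1)
  filter_upwards [h] with o ho m z i n hs
  exact ho (m, z, i, n) hs

end Vale.Agent.P073.HB
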