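import Mathlib.Analysis.Distribution.AEEqOfIntegralContDiff
import Mathlib.MeasureTheory.Integral.IntervalIntegral.FundThmCalculus
import Mathlib.MeasureTheory.Integral.Prod
import Mathlib.Analysis.Calculus.ParametricIntegral
import Mathlib.MeasureTheory.Measure.Haar.Basic

/-!
# P073: a continuous function with a locally integrable weak directional derivative is absolutely
continuous on almost every segment
-/

namespace Vale.Agent.P073.HB

open MeasureTheory Set Filter Topology
open scoped ENNReal ContDiff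

variable {E E' : Type*} [NormedAddCommGroup E] [NormedSpace ℝ E] [FiniteDimensional ℝ E]
  [MeasurableSpace E] [BorelSpace E] {μ : Measure E} [μ.IsAddHaarMeasure]
  [NormedAddCommGroup E'] [NormedSpace ℝ E']

/-- The tube of a compact set in direction `v`. -/
def tube (v : E) (K : Set E) : Set E := (fun p : ℝ × E => p.2 + p.1 • v) '' (Icc (0 : ℝ) 1 ×ˢ K)

omit [FiniteDimensional ℝ E] [MeasurableSpace E] [BorelSpace E] in
theorem isCompact_tube (v : E) {K : Set E} (hK : IsCompact K) : IsCompact (tube v K) :=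
  (isCompact_Icc.prod hK).image (by fun_prop)

omit [FiniteDimensional ℝ E] [MeasurableSpace E] [BorelSpace E] in
theorem mem_tube {v : E} {K : Set E} {x : E} (hx : x ∈ K) {s : ℝ} (hs : s ∈ Icc (0 : ℝ) 1) :
    x + s • v ∈ tube v K := ⟨(s, x), ⟨hs, hx⟩, rfl⟩

/-- Points whose segment in direction `v` is contained in `Ω`. -/
def segOK (v : E) (Ω : Set E) : Set E := {x | ∀ s ∈ Icc (0 : ℝ) 1, x + s • v ∈ Ω}

omit [FiniteDimensional ℝ E] [MeasurableSpace E] [BorelSpace E] in
theorem tube_subset {v : E} {Ω K : Set E} (h : K ⊆ segOK v Ω) : tube v K ⊆ Ω := by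
  rintro _ ⟨⟨s, x⟩, ⟨hs, hx⟩, rfl⟩
  exact h hx s hs

omit [FiniteDimensional ℝ E] [MeasurableSpace E] [BorelSpace E] in
theorem isOpen_segOK (v : E) {Ω : Set E} (hΩ : IsOpen Ω) : IsOpen (segOK v Ω) := by
  have : segOK v Ω = {x | ∀ s ∈ Icc (0 : ℝ) 1, (s, x) ∈ (fun p : ℝ × E => p.2 + p.1 • v) ⁻¹' Ω} := rfl
  rw [this, isOpen_iff_mem_nhds]
  intro x hx
  have ho : IsOpen ((fun p : ℝ × E => p.2 + p.1 • v) ⁻¹' Ω) := hΩ.preimage (by fun_prop)
  have hsub : Icc (0 : ℝ) 1 ×ˢ ({x} : Set E) ⊆ (fun p : ℝ × E => p.2 + p.1 • v) ⁻¹' Ω := by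
    rintro ⟨s, y⟩ ⟨hs, hy⟩
    rw [mem_singleton_iff] at hy
    simp only at hs hy
    subst hy
    exact hx s hs
  obtain ⟨u, w, hu, hw, hIu, hxw, huw⟩ :=
    generalized_tube_lemma isCompact_Icc isCompact_singleton ho hsub
  filter_upwards [hw.mem_nhds (hxw rfl)] with y hy s hs
  exact huw ⟨hIu hs, hy⟩

/-- The shear `(s, x) ↦ (s, x + s v)` preserves the product measure. -/
theorem measurePreserving_shear (v : E) (ν : Measure ℝ) [SFinite ν] :
    MeasurePreserving (fun p : ℝ × E => (p.1, p.2 + p.1 • v)) (ν.prod μ) (ν.prod μ) := by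
  refine (MeasurePreserving.id ν).skew_product (g := fun s x => x + s • v) ?_ ?_
  · exact (by fun_prop : Continuous (Function.uncurry fun (s : ℝ) (x : E) => x + s • v)).measurable
  · filter_upwards with s
    exact (measurePreserving_add_right μ (s • v)).map_eq

theorem integrable_shear' {g : E → E'} (hg : Integrable g μ) (v : E) (t : ℝ) :
    Integrable (fun p : ℝ × E => g (p.2 + p.1 • v))
      ((volume.restrict (Ioc (0 : ℝ) t)).prod μ) := by
  have h1 : Integrable (fun p : ℝ × E => g p.2) ((volume.restrict (Ioc (0 : ℝ) t)).prod μ) := by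
    have : IsFiniteMeasure (volume.restrict (Ioc (0 : ℝ) t)) := by
      constructor
      rw [Measure.restrict_apply_univ]
      exact measure_Ioc_lt_top
    exact hg.comp_snd _
  exact (measurePreserving_shear v _).integrable_comp_of_integrable h1

theorem integrable_shear {g : E → E'} (hg : Integrable g μ) (v : E) (t : ℝ) {ψ : E → ℝ}
    (hψ : Continuous ψ) (hψc : HasCompactSupport ψ) :
    Integrable (fun p : ℝ × E => ψ p.2 • g (p.2 + p.1 • v))
      ((volume.restrict (Ioc (0 : ℝ) t)).prod μ) := by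
  obtain ⟨C, hC⟩ := hψc.exists_bound_of_continuous hψ
  refine (integrable_shear' hg v t).bdd_smul (C := C) ?_ ?_
  · exact (hψ.comp continuous_snd).aestronglyMeasurable
  · filter_upwards with p
    exact hC p.2


section
variable {f g : E → E'} {v : E} {ψ : E → ℝ}

theorem integral_shift (g : E → E') (w : E) (φ : E → ℝ) :
    ∫ x, φ (x - w) • g x ∂μ = ∫ x, φ x • g (x + w) ∂μ := by
  rw [← integral_add_right_eq_self (fun x => φ (x - w) • g x) w]
  simp only [add_sub_cancel_right]

theorem continuous_J [SecondCountableTopology E] (hg : Integrable g μ) (hψ : Continuous ψ)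
    (hψc : HasCompactSupport ψ) (v : E) : Continuous fun s : ℝ => ∫ x, ψ (x - s • v) • g x ∂μ := by
  obtain ⟨C, hC⟩ := hψc.exists_bound_of_continuous hψ
  refine continuous_of_dominated (bound := fun x => C * ‖g x‖) ?_ ?_ ?_ ?_
  · intro s
    exact (hψ.comp (by fun_prop)).aestronglyMeasurable.smul hg.aestronglyMeasurable
  · intro s
    filter_upwards with x
    rw [norm_smul]
    exact mul_le_mul_of_nonneg_right (hC _) (norm_nonneg _)
  · exact hg.norm.const_mul C
  · filter_upwards with x
    exact (hψ.comp (by fun_prop)).smul continuous_const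

theorem hasDerivAt_J [SecondCountableTopology E] [CompleteSpace E'] (hf : Integrable f μ) (hψ : ContDiff ℝ ∞ ψ)
    (hψc : HasCompactSupport ψ) (v : E) (s : ℝ) :
    HasDerivAt (fun s : ℝ => ∫ x, ψ (x - s • v) • f x ∂μ)
      (∫ x, (-(fderiv ℝ ψ (x - s • v) v)) • f x ∂μ) s := by
  have hd : Continuous (fderiv ℝ ψ) := hψ.continuous_fderiv (by simp)
  have hdc : HasCompactSupport (fderiv ℝ ψ) := hψc.fderiv ℝ
  obtain ⟨C, hC⟩ := hdc.exists_bound_of_continuous hd
  refine (hasDerivAt_integral_of_dominated_loc_of_deriv_le (bound := fun x => C * ‖v‖ * ‖f x‖)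
    (F' := fun s x => (-(fderiv ℝ ψ (x - s • v) v)) • f x) (s := univ) univ_mem ?_ ?_ ?_ ?_ ?_ ?_).2
  · filter_upwards with s
    exact (hψ.continuous.comp (by fun_prop)).aestronglyMeasurable.smul hf.aestronglyMeasurable
  · obtain ⟨C', hC'⟩ := hψc.exists_bound_of_continuous hψ.continuous
    exact hf.bdd_smul (C := C') (hψ.continuous.comp (by fun_prop)).aestronglyMeasurable
      (by filter_upwards with x using hC' _)
  · refine AEStronglyMeasurable.smul ?_ hf.aestronglyMeasurable
    have : Continuous fun x => -(fderiv ℝ ψ (x - s • v) v) :=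
      ((hd.comp (by fun_prop : Continuous fun x : E => x - s • v)).clm_apply continuous_const).neg
    exact this.aestronglyMeasurable
  · filter_upwards with x t _
    rw [norm_smul, norm_neg]
    refine mul_le_mul_of_nonneg_right ?_ (norm_nonneg _)
    exact (ContinuousLinearMap.le_opNorm _ _).trans
      (mul_le_mul_of_nonneg_right (hC _) (norm_nonneg _))
  · exact hf.norm.const_mul _
  · filter_upwards with x t _
    have h1 : HasDerivAt (fun s : ℝ => x - s • v) (-v) t := by
      have := ((hasDerivAt_id t).smul_const v).const_sub x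
      simpa using this
    have h2 : HasFDerivAt ψ (fderiv ℝ ψ (x - t • v)) (x - t • v) :=
      (hψ.differentiable (by simp)).differentiableAt.hasFDerivAt
    have h3 := h2.comp_hasDerivAt t h1
    rw [map_neg] at h3
    exact h3.smul_const _


/-- The weak derivative identity, in direction `v`. -/
def WeakDir (μ : Measure E) (Ω : Set E) (f g : E → E') (v : E) : Prop :=
  ∀ φ : E → ℝ, ContDiff ℝ ∞ φ → HasCompactSupport φ → tsupport φ ⊆ Ω →
    ∫ x in Ω, φ x • g x ∂μ = - ∫ x in Ω, (fderiv ℝ φ x v) • f x ∂μ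

theorem shift_test {K : Set E} (hK : IsCompact K) (hψK : ∀ x, x ∉ K → ψ x = 0) {s : ℝ}
    (hs : s ∈ Icc (0 : ℝ) 1) : ∀ x, x ∉ tube v K → ψ (x - s • v) = 0 := by
  intro x hx
  apply hψK
  intro h
  exact hx (by simpa using mem_tube (v := v) h hs)

theorem weak_shift [SecondCountableTopology E] {Ω : Set E}
    (hw : WeakDir μ Ω f g v) (hψ : ContDiff ℝ ∞ ψ) {K : Set E} (hK : IsCompact K)
    (hψK : ∀ x, x ∉ K → ψ x = 0) (hKΩ : K ⊆ segOK v Ω) {s : ℝ} (hs : s ∈ Icc (0 : ℝ) 1) :
    ∫ x, ψ (x - s • v) • (tube v K).indicator g x ∂μ =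
      ∫ x, (-(fderiv ℝ ψ (x - s • v) v)) • (tube v K).indicator f x ∂μ := by
  have hKc := isCompact_tube v hK
  have hz := shift_test (v := v) hK hψK hs
  have hsub : Function.support (fun x => ψ (x - s • v)) ⊆ tube v K := by
    intro x hx
    by_contra hn
    exact hx (hz x hn)
  have hts : tsupport (fun x => ψ (x - s • v)) ⊆ tube v K := closure_minimal hsub hKc.isClosed
  have hcd : ContDiff ℝ ∞ (fun x => ψ (x - s • v)) := hψ.comp (contDiff_id.sub contDiff_const)
  have hfd : ∀ x, fderiv ℝ (fun x => ψ (x - s • v)) x = fderiv ℝ ψ (x - s • v) := by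
    intro x
    have h2 : HasFDerivAt ψ (fderiv ℝ ψ (x - s • v)) (x - s • v) :=
      (hψ.differentiable (by simp)).differentiableAt.hasFDerivAt
    have h3 : HasFDerivAt (fun x : E => x - s • v) (ContinuousLinearMap.id ℝ E) x :=
      (hasFDerivAt_id x).sub_const _
    have := h2.comp x h3
    rw [ContinuousLinearMap.comp_id] at this
    exact this.fderiv
  have h := hw _ hcd (HasCompactSupport.of_support_subset_isCompact hKc hsub)
    (hts.trans (tube_subset hKΩ))
  have hzd : ∀ x, x ∉ tube v K → fderiv ℝ (fun x => ψ (x - s • v)) x = 0 := by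
    intro x hx
    have : x ∉ tsupport (fun x => ψ (x - s • v)) := fun h => hx (hts h)
    exact image_eq_zero_of_notMem_tsupport (f := fderiv ℝ (fun x => ψ (x - s • v)))
      (fun h => this (tsupport_fderiv_subset ℝ h))
  rw [setIntegral_eq_integral_of_forall_compl_eq_zero, setIntegral_eq_integral_of_forall_compl_eq_zero] at h
  · calc ∫ x, ψ (x - s • v) • (tube v K).indicator g x ∂μ = ∫ x, ψ (x - s • v) • g x ∂μ := by
          refine integral_congr_ae (ae_of_all _ fun x => ?_)
          by_cases hx : x ∈ tube v K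
          · simp only [indicator_of_mem hx]
          · simp only [hz x hx, zero_smul]
      _ = - ∫ x, (fderiv ℝ (fun x => ψ (x - s • v)) x v) • f x ∂μ := h
      _ = ∫ x, (-(fderiv ℝ ψ (x - s • v) v)) • (tube v K).indicator f x ∂μ := by
          rw [← integral_neg]
          refine integral_congr_ae (ae_of_all _ fun x => ?_)
          by_cases hx : x ∈ tube v K
          · simp only [indicator_of_mem hx, hfd, neg_smul]
          · simp only [← hfd, hzd x hx, ContinuousLinearMap.zero_apply, zero_smul, neg_zero]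
  · intro x hx
    rw [hzd x (fun h => hx (tube_subset hKΩ h))]
    simp
  · intro x hx
    rw [hz x (fun h => hx (tube_subset hKΩ h)), zero_smul]

theorem test_identity [SecondCountableTopology E] [CompleteSpace E'] {Ω : Set E}
    (hf : ContinuousOn f Ω) (hg : LocallyIntegrableOn g Ω μ)
    (hw : WeakDir μ Ω f g v) (hψ : ContDiff ℝ ∞ ψ) {K : Set E} (hK : IsCompact K)
    (hψK : ∀ x, x ∉ K → ψ x = 0) (hKΩ : K ⊆ segOK v Ω) {t : ℝ} (ht : t ∈ Icc (0 : ℝ) 1) :
    ∫ x, ψ x • (f (x + t • v) - f x - ∫ s in (0 : ℝ)..t, g (x + s • v)) ∂μ = 0 := by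
  have hKc := isCompact_tube v hK
  have hsub := tube_subset hKΩ
  have hψc : HasCompactSupport ψ := HasCompactSupport.intro hK (fun x hx => hψK x hx)
  set f1 := (tube v K).indicator f with hf1
  set g1 := (tube v K).indicator g with hg1
  have hf1i : Integrable f1 μ := by
    rw [hf1, integrable_indicator_iff hKc.measurableSet]
    exact (hf.mono hsub).integrableOn_compact hKc
  have hg1i : Integrable g1 μ := by
    rw [hg1, integrable_indicator_iff hKc.measurableSet]
    exact hg.integrableOn_compact_subset hsub hKc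
  have hcd : Continuous fun x => -(fderiv ℝ ψ x v) :=
    ((hψ.continuous_fderiv (by simp)).clm_apply continuous_const).neg
  have hcdc : HasCompactSupport fun x => -(fderiv ℝ ψ x v) := by
    refine HasCompactSupport.neg ?_
    exact (hψc.fderiv ℝ).comp_left (g := fun L : E →L[ℝ] ℝ => L v) (by simp)
  have hcont := continuous_J (μ := μ) hf1i hcd hcdc v
  have hFTC := intervalIntegral.integral_eq_sub_of_hasDerivAt (a := 0) (b := t)
    (fun s _ => hasDerivAt_J (μ := μ) hf1i hψ hψc v s) (hcont.intervalIntegrable _ _)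
  have e1 : ∫ s in (0 : ℝ)..t, ∫ x, (-(fderiv ℝ ψ (x - s • v) v)) • f1 x ∂μ =
      ∫ s in (0 : ℝ)..t, ∫ x, ψ x • g1 (x + s • v) ∂μ := by
    refine intervalIntegral.integral_congr fun s hs => ?_
    rw [uIcc_of_le ht.1] at hs
    change ∫ x, (-(fderiv ℝ ψ (x - s • v) v)) • f1 x ∂μ = ∫ x, ψ x • g1 (x + s • v) ∂μ
    rw [← integral_shift, ← weak_shift hw hψ hK hψK hKΩ ⟨hs.1, hs.2.trans ht.2⟩]
  have e2 : ∫ s in (0 : ℝ)..t, ∫ x, ψ x • g1 (x + s • v) ∂μ =
      ∫ x, ψ x • (∫ s in (0 : ℝ)..t, g1 (x + s • v)) ∂μ := by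
    rw [intervalIntegral.integral_of_le ht.1,
      integral_integral_swap (f := fun s x => ψ x • g1 (x + s • v))
        (integrable_shear hg1i v t hψ.continuous hψc)]
    refine integral_congr_ae (ae_of_all _ fun x => ?_)
    change _ = ψ x • (∫ s in (0 : ℝ)..t, g1 (x + s • v))
    rw [intervalIntegral.integral_of_le ht.1]
    exact integral_smul _ _
  rw [e1, e2, zero_smul] at hFTC
  simp only [sub_zero] at hFTC
  rw [integral_shift] at hFTC
  obtain ⟨C, hC⟩ := hψc.exists_bound_of_continuous hψ.continuous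
  have i1 : Integrable (fun x => ψ x • f1 (x + t • v)) μ :=
    (hf1i.comp_add_right (t • v)).bdd_smul (C := C) hψ.continuous.aestronglyMeasurable
      (ae_of_all _ hC)
  have i2 : Integrable (fun x => ψ x • f1 x) μ :=
    hf1i.bdd_smul (C := C) hψ.continuous.aestronglyMeasurable (ae_of_all _ hC)
  have i3 : Integrable (fun x => ψ x • (∫ s in (0 : ℝ)..t, g1 (x + s • v))) μ := by
    refine Integrable.bdd_smul (C := C) ?_ hψ.continuous.aestronglyMeasurable (ae_of_all _ hC)
    simp only [intervalIntegral.integral_of_le ht.1]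
    exact (integrable_shear' hg1i v t).integral_prod_right
  have e3 : ∫ x, ψ x • (f (x + t • v) - f x - ∫ s in (0 : ℝ)..t, g (x + s • v)) ∂μ =
      ∫ x, (ψ x • f1 (x + t • v) - ψ x • f1 x - ψ x • (∫ s in (0 : ℝ)..t, g1 (x + s • v))) ∂μ := by
    refine integral_congr_ae (ae_of_all _ fun x => ?_)
    by_cases hx : x ∈ K
    · have a1 : f1 (x + t • v) = f (x + t • v) := indicator_of_mem (mem_tube hx ht) f
      have a2 : f1 x = f x := by
        have := mem_tube (v := v) hx (s := 0) ⟨le_rfl, zero_le_one⟩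
        rw [zero_smul, add_zero] at this
        exact indicator_of_mem this f
      have a3 : ∫ s in (0 : ℝ)..t, g1 (x + s • v) = ∫ s in (0 : ℝ)..t, g (x + s • v) := by
        refine intervalIntegral.integral_congr fun s hs => ?_
        rw [uIcc_of_le ht.1] at hs
        exact indicator_of_mem (mem_tube hx ⟨hs.1, hs.2.trans ht.2⟩) g
      simp only [a1, a2, a3, smul_sub]
    · simp only [hψK x hx, zero_smul, sub_zero]
  have i4 : Integrable (fun x => ψ x • f1 (x + t • v) - ψ x • f1 x) μ := i1.sub i2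
  rw [e3, integral_sub i4 i3, integral_sub i1 i2, hFTC, sub_self]


theorem seg_subset_K {K : Set E} {x : E} (hx : x ∈ K) {t : ℝ} (ht : t ∈ Icc (0 : ℝ) 1) :
    (∫ s in (0 : ℝ)..t, (tube v K).indicator g (x + s • v)) = ∫ s in (0 : ℝ)..t, g (x + s • v) := by
  refine intervalIntegral.integral_congr fun s hs => ?_
  rw [uIcc_of_le ht.1] at hs
  exact indicator_of_mem (mem_tube hx ⟨hs.1, hs.2.trans ht.2⟩) g

theorem locallyIntegrable_u [SecondCountableTopology E] [CompleteSpace E'] {Ω : Set E}
    (hΩ : IsOpen Ω) (hf : ContinuousOn f Ω) (hg : LocallyIntegrableOn g Ω μ) (v : E) {t : ℝ}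
    (ht : t ∈ Icc (0 : ℝ) 1) :
    LocallyIntegrableOn (fun x => f (x + t • v) - f x - ∫ s in (0 : ℝ)..t, g (x + s • v))
      (segOK v Ω) μ := by
  intro x hx
  obtain ⟨K, hK, hxK, hKU⟩ := exists_compact_subset (isOpen_segOK v hΩ) hx
  refine ⟨K, mem_nhdsWithin_of_mem_nhds (mem_interior_iff_mem_nhds.1 hxK), ?_⟩
  have hKc := isCompact_tube v hK
  have hsub := tube_subset hKU
  have hf1i : Integrable ((tube v K).indicator f) μ := by
    rw [integrable_indicator_iff hKc.measurableSet]
    exact (hf.mono hsub).integrableOn_compact hKc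
  have hg1i : Integrable ((tube v K).indicator g) μ := by
    rw [integrable_indicator_iff hKc.measurableSet]
    exact hg.integrableOn_compact_subset hsub hKc
  have i3 : Integrable (fun x => ∫ s in (0 : ℝ)..t, (tube v K).indicator g (x + s • v)) μ := by
    simp only [intervalIntegral.integral_of_le ht.1]
    exact (integrable_shear' hg1i v t).integral_prod_right
  have i4 := ((hf1i.comp_add_right (t • v)).sub hf1i).sub i3
  refine (i4.integrableOn (s := K)).congr_fun ?_ hK.measurableSet
  intro y hy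
  have a2 : (tube v K).indicator f y = f y := by
    have := mem_tube (v := v) hy (s := 0) ⟨le_rfl, zero_le_one⟩
    rw [zero_smul, add_zero] at this
    exact indicator_of_mem this f
  simp only [Pi.sub_apply, indicator_of_mem (mem_tube hy ht), a2, seg_subset_K hy ht]

theorem ae_u_zero [SecondCountableTopology E] [CompleteSpace E'] {Ω : Set E}
    (hΩ : IsOpen Ω) (hf : ContinuousOn f Ω) (hg : LocallyIntegrableOn g Ω μ)
    (hw : WeakDir μ Ω f g v) {t : ℝ} (ht : t ∈ Icc (0 : ℝ) 1) :
    ∀ᵐ x ∂μ, x ∈ segOK v Ω →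
      f (x + t • v) - f x - ∫ s in (0 : ℝ)..t, g (x + s • v) = 0 := by
  refine (isOpen_segOK v hΩ).ae_eq_zero_of_integral_contDiff_smul_eq_zero
    (locallyIntegrable_u hΩ hf hg v ht) ?_
  intro ψ hψ hψc hψs
  exact test_identity hf hg hw hψ hψc (fun x hx => image_eq_zero_of_notMem_tsupport hx) hψs ht

theorem ae_integrable [SecondCountableTopology E] {Ω : Set E}
    (hΩ : IsOpen Ω) (hg : LocallyIntegrableOn g Ω μ) (v : E) :
    ∀ᵐ x ∂μ, x ∈ segOK v Ω → IntegrableOn (fun s : ℝ => g (x + s • v)) (Ioc 0 1) := by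
  have key : μ {x | x ∈ segOK v Ω ∧ ¬ IntegrableOn (fun s : ℝ => g (x + s • v)) (Ioc 0 1)} = 0 := by
    refine measure_null_of_locally_null _ ?_
    rintro x ⟨hx, -⟩
    obtain ⟨K, hK, hxK, hKU⟩ := exists_compact_subset (isOpen_segOK v hΩ) hx
    have hKc := isCompact_tube v hK
    have hg1i : Integrable ((tube v K).indicator g) μ := by
      rw [integrable_indicator_iff hKc.measurableSet]
      exact hg.integrableOn_compact_subset (tube_subset hKU) hKc
    have h := (integrable_shear' hg1i v 1).prod_left_ae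
    refine ⟨K ∩ {x | x ∈ segOK v Ω ∧ ¬ IntegrableOn (fun s : ℝ => g (x + s • v)) (Ioc 0 1)},
      inter_mem (mem_nhdsWithin_of_mem_nhds (mem_interior_iff_mem_nhds.1 hxK))
        self_mem_nhdsWithin, ?_⟩
    refine measure_mono_null ?_ h
    rintro y ⟨hy, -, hy'⟩
    simp only [mem_compl_iff, mem_setOf_eq]
    intro hc
    apply hy'
    refine hc.congr ?_
    filter_upwards [ae_restrict_mem measurableSet_Ioc] with s hs
    exact indicator_of_mem (mem_tube hy ⟨hs.1.le, hs.2⟩) g
  rw [ae_iff]
  simpa only [Classical.not_imp] using key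

/-- `f` is absolutely continuous on the segment from `x` to `x + v`, with derivative `g`. -/
def GoodDir (f g : E → E') (x v : E) : Prop :=
  IntervalIntegrable (fun s : ℝ => g (x + s • v)) volume 0 1 ∧
    ∀ t ∈ Icc (0 : ℝ) 1, f (x + t • v) = f x + ∫ s in (0 : ℝ)..t, g (x + s • v)

/-- **Absolute continuity on almost every segment.** -/
theorem ae_goodDir [SecondCountableTopology E] [CompleteSpace E'] {Ω : Set E}
    (hΩ : IsOpen Ω) (hf : ContinuousOn f Ω) (hg : LocallyIntegrableOn g Ω μ)
    (hw : WeakDir μ Ω f g v) :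
    ∀ᵐ x ∂μ, (∀ s ∈ Icc (0 : ℝ) 1, x + s • v ∈ Ω) → GoodDir f g x v := by
  have h1 : ∀ᵐ x ∂μ, ∀ n, x ∈ segOK v Ω →
      f (x + (TopologicalSpace.denseSeq (Icc (0 : ℝ) 1) n : ℝ) • v) - f x -
        ∫ s in (0 : ℝ)..(TopologicalSpace.denseSeq (Icc (0 : ℝ) 1) n : ℝ), g (x + s • v) = 0 :=
    ae_all_iff.2 fun n => ae_u_zero hΩ hf hg hw (TopologicalSpace.denseSeq (Icc (0 : ℝ) 1) n).2
  filter_upwards [h1, ae_integrable (μ := μ) hΩ hg v] with x hx1 hx2 hx
  have hi : IntervalIntegrable (fun s : ℝ => g (x + s • v)) volume 0 1 := by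
    rw [intervalIntegrable_iff_integrableOn_Ioc_of_le zero_le_one]
    exact hx2 hx
  refine ⟨hi, ?_⟩
  have hc1 : Continuous fun t : Icc (0 : ℝ) 1 => f (x + (t : ℝ) • v) := by
    have : ContinuousOn (fun t : ℝ => f (x + t • v)) (Icc 0 1) :=
      hf.comp (by fun_prop) hx
    exact continuousOn_iff_continuous_restrict.1 this
  have hc2 : Continuous fun t : Icc (0 : ℝ) 1 => f x + ∫ s in (0 : ℝ)..(t : ℝ), g (x + s • v) := by
    have : ContinuousOn (fun t : ℝ => ∫ s in (0 : ℝ)..t, g (x + s • v)) (Icc 0 1) := by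
      have h := intervalIntegral.continuousOn_primitive_interval' hi
        (left_mem_uIcc (a := (0 : ℝ)) (b := 1))
      rwa [uIcc_of_le zero_le_one] at h
    exact continuous_const.add (continuousOn_iff_continuous_restrict.1 this)
  have he := (TopologicalSpace.denseRange_denseSeq (Icc (0 : ℝ) 1)).equalizer hc1 hc2 (by
    funext n
    have h := hx1 n hx
    simp only [Function.comp_apply]
    rw [sub_sub, sub_eq_zero] at h
    exact h)
  intro t ht
  exact congrFun he ⟨t, ht⟩

end

end Vale.Agent.P073.HB
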