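import Vale.Agent.P073.HB.Acl2
import Mathlib.MeasureTheory.Measure.Lebesgue.EqHaar

/-!
# P073: generic origins of lattices in `Fin k → ℝ`
-/

namespace Vale.Agent.P073.HB

open MeasureTheory Set Filter Topology
open scoped ENNReal NNReal

section

variable {k : ℕ}

/-- The vertex `z` of the lattice with origin `o` and mesh `m`. -/
def vx (o : Fin k → ℝ) (m : ℝ) (z : Fin k → ℤ) : Fin k → ℝ := fun i => o i + m * z i

theorem vx_eq (o : Fin k → ℝ) (m : ℝ) (z : Fin k → ℤ) :
    vx o m z = o + m • fun i => (z i : ℝ) := by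
  funext i
  simp [vx]

/-- The edge vector in direction `i`. -/
def ev (m : ℝ) (i : Fin k) : Fin k → ℝ := Pi.single i m

/-- The half open box of the origins. -/
def obox (k : ℕ) (m : ℝ) : Set (Fin k → ℝ) := {o | ∀ i, 0 ≤ o i ∧ o i < m}

theorem obox_eq (m : ℝ) : obox k m = Set.pi univ fun _ => Ico (0 : ℝ) m := by
  ext o
  simp [obox, Set.mem_pi]

theorem measurableSet_obox (m : ℝ) : MeasurableSet (obox k m) := by
  rw [obox_eq]
  exact MeasurableSet.univ_pi fun _ => measurableSet_Ico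

theorem volume_obox (m : ℝ) : volume (obox k m) = ENNReal.ofReal m ^ k := by
  rw [obox_eq, volume_pi_pi]
  simp

theorem tsum_box_le {m : ℝ} (hm : 0 < m) {κ : (Fin k → ℝ) → ℝ≥0∞} (w : Fin k → ℝ) :
    ∑' z : Fin k → ℤ, ∫⁻ o in obox k m, κ (vx o m z + w) ≤ ∫⁻ x, κ x := by
  have e : ∀ z : Fin k → ℤ, ∫⁻ o in obox k m, κ (vx o m z + w) =
      ∫⁻ x in (fun x => x - (m • fun i => (z i : ℝ)) - w) ⁻¹' obox k m, κ x := by
    intro z
    have hmp : MeasurePreserving (fun x : Fin k → ℝ => x + ((m • fun i => (z i : ℝ)) + w))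
        volume volume := measurePreserving_add_right volume _
    have hme : MeasurableEmbedding (fun x : Fin k → ℝ => x + ((m • fun i => (z i : ℝ)) + w)) :=
      (Homeomorph.addRight _).measurableEmbedding
    have h1 := hmp.setLIntegral_comp_preimage_emb hme κ
      ((fun x => x - (m • fun i => (z i : ℝ)) - w) ⁻¹' obox k m)
    rw [← h1]
    have h2 : (fun x : Fin k → ℝ => x + ((m • fun i => (z i : ℝ)) + w)) ⁻¹'
        ((fun x => x - (m • fun i => (z i : ℝ)) - w) ⁻¹' obox k m) = obox k m := by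
      rw [← preimage_comp]
      convert preimage_id
      funext x
      simp only [Function.comp_apply, id]
      abel
    rw [h2]
    refine lintegral_congr fun o => ?_
    rw [vx_eq, add_assoc]
  simp only [e]
  rw [← lintegral_iUnion]
  · exact setLIntegral_le_lintegral _ _
  · intro z
    exact (measurableSet_obox m).preimage (by fun_prop)
  · intro z z' hzz
    rw [Function.onFun, Set.disjoint_left]
    intro x hx hx'
    apply hzz
    funext i
    have h1 := hx i
    have h2 := hx' i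
    simp only [Pi.sub_apply, Pi.smul_apply, smul_eq_mul] at h1 h2
    have h3 : (z i : ℝ) < z' i + 1 := by
      by_contra h
      push Not at h
      have := mul_le_mul_of_nonneg_left h hm.le
      linarith [h1.1, h2.2]
    have h4 : (z' i : ℝ) < z i + 1 := by
      by_contra h
      push Not at h
      have := mul_le_mul_of_nonneg_left h hm.le
      linarith [h2.1, h1.2]
    have h5 : z i < z' i + 1 := by exact_mod_cast h3
    have h6 : z' i < z i + 1 := by exact_mod_cast h4
    omega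

/-- The sum of the integrals over all the edges of the lattice. -/
noncomputable def edgeSum (κ : (Fin k → ℝ) → ℝ≥0∞) (o : Fin k → ℝ) (m : ℝ) : ℝ≥0∞ :=
  ∑' q : (Fin k → ℤ) × Fin k, ∫⁻ s in Ioc (0 : ℝ) 1, κ (vx o m q.1 + s • ev m q.2)

theorem aemeasurable_edge {κ : (Fin k → ℝ) → ℝ≥0∞} (hκ : AEMeasurable κ) (m : ℝ)
    (z : Fin k → ℤ) (i : Fin k) :
    AEMeasurable fun o : Fin k → ℝ => ∫⁻ s in Ioc (0 : ℝ) 1, κ (vx o m z + s • ev m i) := by
  simp only [vx_eq]
  exact aemeasurable_segAvg (μ := volume) hκ _ _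

theorem aemeasurable_edgeSum {κ : (Fin k → ℝ) → ℝ≥0∞} (hκ : AEMeasurable κ) (m : ℝ) :
    AEMeasurable fun o : Fin k → ℝ => edgeSum κ o m :=
  AEMeasurable.ennreal_tsum fun q => aemeasurable_edge hκ m q.1 q.2

/-- The average of the edge sum over the origins. -/
theorem lintegral_edgeSum_le {m : ℝ} (hm : 0 < m) {κ : (Fin k → ℝ) → ℝ≥0∞}
    (hκ : AEMeasurable κ) : ∫⁻ o in obox k m, edgeSum κ o m ≤ k * ∫⁻ x, κ x := by
  have key : ∀ i : Fin k, ∑' z : Fin k → ℤ, ∫⁻ o in obox k m, ∫⁻ s in Ioc (0 : ℝ) 1,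
      κ (vx o m z + s • ev m i) ≤ ∫⁻ x, κ x := by
    intro i
    have hm2 : ∀ z : Fin k → ℤ, AEMeasurable (fun q : (Fin k → ℝ) × ℝ =>
        κ (vx q.1 m z + q.2 • ev m i))
        ((volume.restrict (obox k m)).prod (volume.restrict (Ioc (0 : ℝ) 1))) := by
      intro z
      have h2 := aemeasurable_shear (μ := volume) hκ (m • fun i => (z i : ℝ)) (ev m i)
      simp only [← vx_eq] at h2
      refine h2.mono_measure ?_
      rw [← Measure.restrict_univ (μ := volume.restrict (Ioc (0 : ℝ) 1)), Measure.prod_restrict,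
        Measure.restrict_univ]
      exact Measure.restrict_le_self
    have h1 : ∀ z : Fin k → ℤ, ∫⁻ o in obox k m, (∫⁻ s in Ioc (0 : ℝ) 1,
        κ (vx o m z + s • ev m i)) = ∫⁻ s in Ioc (0 : ℝ) 1, ∫⁻ o in obox k m,
          κ (vx o m z + s • ev m i) := fun z => lintegral_lintegral_swap (hm2 z)
    simp only [h1]
    rw [← lintegral_tsum fun z => (hm2 z).lintegral_prod_left']
    calc _ ≤ ∫⁻ s in Ioc (0 : ℝ) 1, ∫⁻ x, κ x := by
          refine lintegral_mono fun s => ?_
          exact tsum_box_le (k := k) (κ := κ) hm (s • ev m i)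
      _ = ∫⁻ x, κ x := by
          rw [setLIntegral_const, Real.volume_Ioc]
          simp
  calc ∫⁻ o in obox k m, edgeSum κ o m
      = ∑' q : (Fin k → ℤ) × Fin k, ∫⁻ o in obox k m, ∫⁻ s in Ioc (0 : ℝ) 1,
          κ (vx o m q.1 + s • ev m q.2) :=
        lintegral_tsum fun q => (aemeasurable_edge hκ m q.1 q.2).restrict
    _ = ∑' (z : Fin k → ℤ) (i : Fin k), ∫⁻ o in obox k m, ∫⁻ s in Ioc (0 : ℝ) 1,
          κ (vx o m z + s • ev m i) := ENNReal.tsum_prod' ..
    _ = ∑' (i : Fin k) (z : Fin k → ℤ), ∫⁻ o in obox k m, ∫⁻ s in Ioc (0 : ℝ) 1,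
          κ (vx o m z + s • ev m i) := ENNReal.tsum_comm
    _ = ∑ i : Fin k, ∑' (z : Fin k → ℤ), ∫⁻ o in obox k m, ∫⁻ s in Ioc (0 : ℝ) 1,
          κ (vx o m z + s • ev m i) := tsum_fintype _
    _ ≤ ∑ _i : Fin k, ∫⁻ x, κ x := Finset.sum_le_sum fun i _ => key i
    _ = k * ∫⁻ x, κ x := by
        rw [Finset.sum_const, Finset.card_univ, Fintype.card_fin, nsmul_eq_mul]

/-- **Generic origin of a lattice**: finitely many functionals at once. -/
theorem exists_generic_origin {m : ℝ} (hm : 0 < m) {ι : Type*} (J : Finset ι)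
    (κ : ι → (Fin k → ℝ) → ℝ≥0∞) (hκ : ∀ j ∈ J, AEMeasurable (κ j)) {P : (Fin k → ℝ) → Prop}
    (hP : ∀ᵐ o, P o) :
    ∃ o ∈ obox k m, P o ∧ ∀ j ∈ J, edgeSum (κ j) o m * ENNReal.ofReal m ^ k ≤
      J.card * (k * ∫⁻ x, κ j x) := by
  have h0 : volume (obox k m) ≠ 0 := by
    rw [volume_obox]
    exact pow_ne_zero _ (ENNReal.ofReal_pos.2 hm).ne'
  have ht : volume (obox k m) ≠ ⊤ := by
    rw [volume_obox]
    finiteness
  obtain ⟨o, ho, hPo, hJ⟩ := exists_good_point h0 ht (measurableSet_obox m) J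
    (fun j o => edgeSum (κ j) o m) (fun j hj => (aemeasurable_edgeSum (hκ j hj) m).restrict)
    (P := P) (by
      filter_upwards [hP] with o h1 _
      exact h1)
  refine ⟨o, ho, hPo, fun j hj => ?_⟩
  have h1 := hJ j hj
  rw [volume_obox] at h1
  refine h1.trans ?_
  gcongr
  exact lintegral_edgeSum_le hm (hκ j hj)

end

end Vale.Agent.P073.HB
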