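import Vale.Agent.P073.HB.Acl2
import Mathlib.MeasureTheory.Measure.Lebesgue.EqHaar

/-!
# P073: Poincaré inequality on balls, Hajłasz inequality
-/

namespace Vale.Agent.P073.HB

open MeasureTheory Set Filter Topology Metric
open scoped ENNReal ContDiff NNReal

variable {E E' : Type*} [NormedAddCommGroup E] [NormedSpace ℝ E] [FiniteDimensional ℝ E]
  [MeasurableSpace E] [BorelSpace E] {μ : Measure E} [μ.IsAddHaarMeasure]
  [NormedAddCommGroup E'] [NormedSpace ℝ E'] [CompleteSpace E']

/-- The increment of `f` minus its linear part. -/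
theorem ae_increment_le {Ω : Set E} {f : E → E'} {F : E → (E →L[ℝ] E')} (hΩ : IsOpen Ω)
    (hf : ContinuousOn f Ω) (hF : LocallyIntegrableOn F Ω μ) (hw : WeakDeriv μ Ω f F)
    (A : E →L[ℝ] E') (v : E) :
    ∀ᵐ x ∂μ, (∀ s ∈ Icc (0 : ℝ) 1, x + s • v ∈ Ω) →
      ‖f (x + v) - f x - A v‖ₑ ≤ ‖v‖ₑ * ∫⁻ s in Ioc (0 : ℝ) 1, ‖F (x + s • v) - A‖ₑ := by
  filter_upwards [ae_goodSeg (μ := μ) hΩ hf hF hw v] with x hx hs
  have h := (hx hs).enorm_sub_le A (t := 0) (t' := 1) ⟨le_rfl, zero_le_one⟩ ⟨zero_le_one, le_rfl⟩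
  simp only [one_smul, zero_smul, add_zero, sub_zero] at h
  refine h.trans ?_
  rw [← lintegral_const_mul' _ _ enorm_ne_top]
  refine lintegral_mono fun s => ?_
  calc ‖F (x + s • v) v - A v‖ₑ = ‖(F (x + s • v) - A) v‖ₑ := by
        rw [ContinuousLinearMap.sub_apply]
    _ ≤ ‖F (x + s • v) - A‖ₑ * ‖v‖ₑ := ContinuousLinearMap.le_opENorm _ _
    _ = ‖v‖ₑ * ‖F (x + s • v) - A‖ₑ := mul_comm _ _

/-- **Poincaré inequality on convex bounded sets**, double integral form. -/
theorem poincare {Ω : Set E} {f : E → E'} {F : E → (E →L[ℝ] E')} (hΩ : IsOpen Ω)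
    (hf : ContinuousOn f Ω) (hF : LocallyIntegrableOn F Ω μ) (hw : WeakDeriv μ Ω f F)
    (A : E →L[ℝ] E') {B : Set E} (hB : IsOpen B) (hBc : Convex ℝ B) (hBΩ : B ⊆ Ω) {r : ℝ}
    (hr : ∀ x ∈ B, ∀ y ∈ B, ‖y - x‖ < r) :
    ∫⁻ x in B, ∫⁻ y in B, ‖f y - f x - A (y - x)‖ₑ ∂μ ∂μ ≤
      ENNReal.ofReal r * μ (ball 0 r) * ∫⁻ z in B, ‖F z - A‖ₑ ∂μ := by
  classical
  set k : E → ℝ≥0∞ := B.indicator fun z => ‖F z - A‖ₑ with hk
  have hkm : AEMeasurable k μ := by
    have := aemeasurable_pow hF hB.measurableSet hBΩ A 1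
    simpa only [ENNReal.rpow_one] using this
  set G : E → E → ℝ≥0∞ := fun x y => B.indicator (fun x => B.indicator
    (fun y => ‖f y - f x - A (y - x)‖ₑ) y) x with hG
  have hfm : AEStronglyMeasurable (B.indicator f) μ := by
    rw [aestronglyMeasurable_indicator_iff hB.measurableSet]
    exact (hf.mono hBΩ).aestronglyMeasurable hB.measurableSet
  have hGm : AEMeasurable (Function.uncurry G) (μ.prod μ) := by
    have h1 : AEStronglyMeasurable (fun p : E × E => B.indicator f p.2 - B.indicator f p.1 -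
        A (p.2 - p.1)) (μ.prod μ) := by
      refine (hfm.comp_snd.sub hfm.comp_fst).sub ?_
      exact (A.continuous.comp (by fun_prop)).aestronglyMeasurable
    have h2 := h1.enorm.indicator (hB.measurableSet.prod hB.measurableSet)
    refine h2.congr (ae_of_all _ fun p => ?_)
    simp only [hG, Function.uncurry, indicator, mem_prod]
    by_cases h1 : p.1 ∈ B <;> by_cases h2 : p.2 ∈ B <;> simp [h1, h2]
  have e1 : ∫⁻ x in B, ∫⁻ y in B, ‖f y - f x - A (y - x)‖ₑ ∂μ ∂μ = ∫⁻ x, ∫⁻ y, G x y ∂μ ∂μ := by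
    rw [← lintegral_indicator hB.measurableSet]
    refine lintegral_congr fun x => ?_
    by_cases hx : x ∈ B
    · simp only [hG, indicator_of_mem hx]
      rw [lintegral_indicator hB.measurableSet]
    · simp only [hG, indicator_of_notMem hx, lintegral_zero]
  have e2 : ∫⁻ x, ∫⁻ y, G x y ∂μ ∂μ = ∫⁻ x, ∫⁻ v, G x (x + v) ∂μ ∂μ := by
    refine lintegral_congr fun x => ?_
    exact (lintegral_add_left_eq_self (fun y => G x y) x).symm
  have hmp : MeasurePreserving (fun p : E × E => (p.1, p.1 + p.2)) (μ.prod μ) (μ.prod μ) :=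
    measurePreserving_prod_add μ μ
  have hGm2 : AEMeasurable (Function.uncurry fun x v => G x (x + v)) (μ.prod μ) :=
    hGm.comp_quasiMeasurePreserving hmp.quasiMeasurePreserving
  have e3 : ∫⁻ x, ∫⁻ v, G x (x + v) ∂μ ∂μ = ∫⁻ v, ∫⁻ x, G x (x + v) ∂μ ∂μ :=
    lintegral_lintegral_swap hGm2
  rw [e1, e2, e3]
  have key : ∀ v, ∫⁻ x, G x (x + v) ∂μ ≤
      (ball (0 : E) r).indicator (fun _ => ENNReal.ofReal r * ∫⁻ z in B, ‖F z - A‖ₑ ∂μ) v := by
    intro v
    by_cases hv : v ∈ ball (0 : E) r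
    · rw [indicator_of_mem hv]
      set Bv : Set E := B ∩ (fun x => x + v) ⁻¹' B with hBv
      have hBvm : MeasurableSet Bv :=
        hB.measurableSet.inter (hB.preimage (by fun_prop)).measurableSet
      have hseg : ∀ x ∈ Bv, ∀ s ∈ Icc (0 : ℝ) 1, x + s • v ∈ B := by
        intro x hx s hs
        have := hBc.add_smul_sub_mem hx.1 hx.2 hs
        simpa using this
      have h1 : ∀ᵐ x ∂μ, G x (x + v) ≤
          Bv.indicator (fun x => ‖v‖ₑ * ∫⁻ s in Ioc (0 : ℝ) 1, k (x + s • v)) x := by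
        filter_upwards [ae_increment_le (μ := μ) hΩ hf hF hw A v] with x hx
        by_cases hxB : x ∈ Bv
        · rw [indicator_of_mem hxB]
          simp only [hG, indicator_of_mem hxB.1, indicator_of_mem (show x + v ∈ B from hxB.2)]
          have h2 := hx (fun s hs => hBΩ (hseg x hxB s hs))
          rw [add_sub_cancel_left]
          refine h2.trans (mul_le_mul_right ?_ _)
          refine setLIntegral_mono' measurableSet_Ioc fun s hs => ?_
          simp only [hk]
          rw [indicator_of_mem (hseg x hxB s ⟨hs.1.le, hs.2⟩)]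
        · have : G x (x + v) = 0 := by
            simp only [hG]
            by_cases hx1 : x ∈ B
            · rw [indicator_of_mem hx1, indicator_of_notMem]
              exact fun h => hxB ⟨hx1, h⟩
            · rw [indicator_of_notMem hx1]
          rw [this]
          exact zero_le
      calc ∫⁻ x, G x (x + v) ∂μ
          ≤ ∫⁻ x, Bv.indicator (fun x => ‖v‖ₑ * ∫⁻ s in Ioc (0 : ℝ) 1, k (x + s • v)) x ∂μ :=
            lintegral_mono_ae h1
        _ = ∫⁻ x in Bv, ‖v‖ₑ * (∫⁻ s in Ioc (0 : ℝ) 1, k (x + s • v)) ∂μ :=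
            lintegral_indicator hBvm _
        _ = ‖v‖ₑ * ∫⁻ x in Bv, (∫⁻ s in Ioc (0 : ℝ) 1, k (x + s • v)) ∂μ :=
            lintegral_const_mul' _ _ enorm_ne_top
        _ ≤ ENNReal.ofReal r * ∫⁻ z in B, k z ∂μ := by
            have h3 := lintegral_segAvg_le (μ := μ) hkm (B := Bv) (T := B) hBvm 0 v (by
              intro x hx s hs
              rw [add_zero]
              exact hseg x hx s hs)
            simp only [add_zero] at h3
            refine mul_le_mul' ?_ h3
            rw [← ofReal_norm]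
            refine ENNReal.ofReal_le_ofReal ?_
            rw [mem_ball_zero_iff] at hv
            exact hv.le
        _ = ENNReal.ofReal r * ∫⁻ z in B, ‖F z - A‖ₑ ∂μ := by
            congr 1
            refine setLIntegral_congr_fun hB.measurableSet fun z hz => ?_
            simp only [hk, indicator_of_mem hz]
    · have : ∀ x, G x (x + v) = 0 := by
        intro x
        simp only [hG]
        by_cases hx1 : x ∈ B
        · rw [indicator_of_mem hx1, indicator_of_notMem]
          intro hx2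
          apply hv
          have := hr x hx1 (x + v) hx2
          rw [add_sub_cancel_left] at this
          rwa [mem_ball_zero_iff]
        · rw [indicator_of_notMem hx1]
      simp only [this, lintegral_zero]
      exact zero_le
  calc ∫⁻ v, ∫⁻ x, G x (x + v) ∂μ ∂μ
      ≤ ∫⁻ v, (ball (0 : E) r).indicator
          (fun _ => ENNReal.ofReal r * ∫⁻ z in B, ‖F z - A‖ₑ ∂μ) v ∂μ := lintegral_mono key
    _ = ENNReal.ofReal r * μ (ball 0 r) * ∫⁻ z in B, ‖F z - A‖ₑ ∂μ := by
        rw [lintegral_indicator measurableSet_ball, setLIntegral_const]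
        ring

end Vale.Agent.P073.HB
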