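import Vale.Agent.P073.HB.Haj

/-!
# P073: the Hajłasz inequality
-/

namespace Vale.Agent.P073.HB

open MeasureTheory Set Filter Topology Metric Module
open scoped ENNReal ContDiff NNReal

section

variable {E E' : Type*} [NormedAddCommGroup E] [NormedSpace ℝ E] [FiniteDimensional ℝ E]
  [MeasurableSpace E] [BorelSpace E] {μ : Measure E} [μ.IsAddHaarMeasure]
  [NormedAddCommGroup E'] [NormedSpace ℝ E']

/-- The average of `h` over `S`. -/
noncomputable def av (μ : Measure E) (S : Set E) (h : E → ℝ≥0∞) : ℝ≥0∞ :=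
  (∫⁻ z in S, h z ∂μ) / μ S

/-- The increment of `f - A`. -/
noncomputable def inc (f : E → E') (A : E →L[ℝ] E') (x y : E) : ℝ≥0∞ := ‖f y - f x - A (y - x)‖ₑ

omit [FiniteDimensional ℝ E] [MeasurableSpace E] [BorelSpace E] in
theorem inc_comm (f : E → E') (A : E →L[ℝ] E') (x y : E) : inc f A x y = inc f A y x := by
  unfold inc
  rw [← enorm_neg]
  congr 1
  rw [map_sub, map_sub]
  abel

omit [FiniteDimensional ℝ E] [MeasurableSpace E] [BorelSpace E] in
theorem inc_triangle (f : E → E') (A : E →L[ℝ] E') (x y z : E) :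
    inc f A x z ≤ inc f A x y + inc f A y z := by
  unfold inc
  have : f z - f x - A (z - x) = (f y - f x - A (y - x)) + (f z - f y - A (z - y)) := by
    rw [map_sub, map_sub, map_sub]
    abel
  rw [this]
  exact enorm_add_le _ _

theorem ball_ne_zero (x : E) {r : ℝ} (hr : 0 < r) : μ (ball x r) ≠ 0 :=
  (measure_ball_pos μ x hr).ne'

theorem ball_ne_top (x : E) (r : ℝ) : μ (ball x r) ≠ ⊤ := measure_ball_lt_top.ne

theorem measure_ball_two (x y : E) (r : ℝ) :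
    μ (ball x (2 * r)) = 2 ^ finrank ℝ E * μ (ball y r) := by
  rw [Measure.addHaar_ball_mul_of_pos μ x two_pos, Measure.addHaar_ball_center μ y r,
    ENNReal.ofReal_pow (by norm_num)]
  norm_num

omit [FiniteDimensional ℝ E] [μ.IsAddHaarMeasure] [NormedSpace ℝ E] in
theorem le_av_of_le {S : Set E} (hS : MeasurableSet S) (h0 : μ S ≠ 0) (ht : μ S ≠ ⊤) {c : ℝ≥0∞}
    {h : E → ℝ≥0∞} (hc : ∀ z ∈ S, c ≤ h z) : c ≤ av μ S h := by
  unfold av
  rw [ENNReal.le_div_iff_mul_le (Or.inl h0) (Or.inl ht), ← setLIntegral_const]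
  exact setLIntegral_mono' hS hc

omit [FiniteDimensional ℝ E] [μ.IsAddHaarMeasure] [NormedSpace ℝ E] in
theorem av_le_of_le {S : Set E} (hS : MeasurableSet S) {c : ℝ≥0∞}
    {h : E → ℝ≥0∞} (hc : ∀ z ∈ S, h z ≤ c) : av μ S h ≤ c := by
  unfold av
  refine ENNReal.div_le_of_le_mul ?_
  rw [← setLIntegral_const]
  exact setLIntegral_mono' hS hc

theorem aemeasurable_inc {Ω : Set E} {f : E → E'} (hf : ContinuousOn f Ω) (A : E →L[ℝ] E') (x : E)
    {S : Set E} (hS : MeasurableSet S) (hSΩ : S ⊆ Ω) :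
    AEMeasurable (inc f A x) (μ.restrict S) := by
  have h1 : ContinuousOn (fun y => f y - f x - A (y - x)) S :=
    ((hf.mono hSΩ).sub continuousOn_const).sub (A.continuous.comp (by fun_prop)).continuousOn
  exact (h1.aestronglyMeasurable hS).enorm

theorem av_inc_triangle {Ω : Set E} {f : E → E'} (hf : ContinuousOn f Ω) (A : E →L[ℝ] E')
    {S T : Set E} (hS : MeasurableSet S) (hSΩ : S ⊆ Ω) (hS0 : μ S ≠ 0) (hSt : μ S ≠ ⊤)
    (hT : MeasurableSet T) (hT0 : μ T ≠ 0) (hTt : μ T ≠ ⊤) (x : E) :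
    av μ T (inc f A x) ≤ av μ S (inc f A x) + av μ S (fun w => av μ T (inc f A w)) := by
  have h1 : ∀ w ∈ S, av μ T (inc f A x) ≤ inc f A x w + av μ T (inc f A w) := by
    intro w _
    unfold av
    refine ENNReal.div_le_of_le_mul ?_
    rw [add_mul, ENNReal.div_mul_cancel hT0 hTt, ← setLIntegral_const,
      ← lintegral_add_left measurable_const]
    exact setLIntegral_mono' hT fun z _ => inc_triangle f A x w z
  refine (le_av_of_le hS hS0 hSt h1).trans ?_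
  unfold av
  rw [lintegral_add_left' (aemeasurable_inc hf A x hS hSΩ), ENNReal.add_div]

end

section

variable {E E' : Type*} [NormedAddCommGroup E] [NormedSpace ℝ E] [FiniteDimensional ℝ E]
  [MeasurableSpace E] [BorelSpace E] {μ : Measure E} [μ.IsAddHaarMeasure]
  [NormedAddCommGroup E'] [NormedSpace ℝ E'] [CompleteSpace E']
  {Ω : Set E} {f : E → E'} {F : E → (E →L[ℝ] E')}

theorem av_av_le (hΩ : IsOpen Ω) (hf : ContinuousOn f Ω) (hF : LocallyIntegrableOn F Ω μ)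
    (hw : WeakDeriv μ Ω f F) (A : E →L[ℝ] E') {x : E} {ρ : ℝ} (hρ : 0 < ρ)
    (hb : ball x ρ ⊆ Ω) {S : Set E} (hS : S ⊆ ball x ρ) (hS0 : μ S ≠ 0) (hSt : μ S ≠ ⊤)
    (hK : μ (ball x ρ) ≤ 2 ^ finrank ℝ E * μ S) :
    av μ S (fun w => av μ (ball x ρ) (inc f A w)) ≤
      4 ^ finrank ℝ E * ENNReal.ofReal (2 * ρ) * av μ (ball x ρ) (fun z => ‖F z - A‖ₑ) := by
  set n := finrank ℝ E with hn
  have hB0 := ball_ne_zero (μ := μ) x hρ
  have hBt := ball_ne_top (μ := μ) x ρ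
  have hP := poincare (μ := μ) hΩ hf hF hw A isOpen_ball (convex_ball x ρ) hb (r := 2 * ρ) (by
    intro a ha b hb
    rw [mem_ball, dist_eq_norm] at ha hb
    calc ‖b - a‖ = ‖(b - x) - (a - x)‖ := by congr 1; abel
      _ ≤ ‖b - x‖ + ‖a - x‖ := norm_sub_le _ _
      _ < 2 * ρ := by linarith)
  have h2 : μ (ball (0 : E) (2 * ρ)) = 2 ^ n * μ (ball x ρ) := measure_ball_two 0 x ρ
  rw [h2] at hP
  set I := ∫⁻ z in ball x ρ, ‖F z - A‖ₑ ∂μ with hI
  set M := μ (ball x ρ) with hM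
  unfold av
  rw [← hM]
  simp only [ENNReal.div_eq_inv_mul]
  rw [lintegral_const_mul' _ _ (ENNReal.inv_ne_top.2 hB0)]
  calc (μ S)⁻¹ * (M⁻¹ * ∫⁻ w in S, ∫⁻ z in ball x ρ, inc f A w z ∂μ ∂μ)
      ≤ (μ S)⁻¹ * (M⁻¹ * (ENNReal.ofReal (2 * ρ) * (2 ^ n * M) * I)) := by
        gcongr
        exact (lintegral_mono_set hS).trans hP
    _ = (μ S)⁻¹ * (M⁻¹ * M) * (ENNReal.ofReal (2 * ρ) * 2 ^ n * I) := by ring
    _ = (μ S)⁻¹ * (ENNReal.ofReal (2 * ρ) * 2 ^ n * I) := by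
        rw [ENNReal.inv_mul_cancel hB0 hBt, mul_one]
    _ ≤ (2 ^ n * M⁻¹) * (ENNReal.ofReal (2 * ρ) * 2 ^ n * I) := by
        gcongr
        calc (μ S)⁻¹ = (μ S)⁻¹ * (M * M⁻¹) := by rw [ENNReal.mul_inv_cancel hB0 hBt, mul_one]
          _ ≤ (μ S)⁻¹ * ((2 ^ n * μ S) * M⁻¹) := by gcongr
          _ = ((μ S)⁻¹ * μ S) * (2 ^ n * M⁻¹) := by ring
          _ = 2 ^ n * M⁻¹ := by rw [ENNReal.inv_mul_cancel hS0 hSt, one_mul]
    _ = 4 ^ n * ENNReal.ofReal (2 * ρ) * (M⁻¹ * I) := by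
        have : (4 : ℝ≥0∞) ^ n = 2 ^ n * 2 ^ n := by
          rw [← mul_pow]
          norm_num
        rw [this]
        ring


theorem av_step (hΩ : IsOpen Ω) (hf : ContinuousOn f Ω) (hF : LocallyIntegrableOn F Ω μ)
    (hw : WeakDeriv μ Ω f F) (A : E →L[ℝ] E') {x : E} {ρ : ℝ} (hρ : 0 < ρ)
    (hb : ball x ρ ⊆ Ω) :
    av μ (ball x ρ) (inc f A x) ≤ av μ (ball x (ρ / 2)) (inc f A x) +
      4 ^ finrank ℝ E * ENNReal.ofReal (2 * ρ) * av μ (ball x ρ) (fun z => ‖F z - A‖ₑ) := by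
  have hsub : ball x (ρ / 2) ⊆ ball x ρ := ball_subset_ball (by linarith)
  have h2 : μ (ball x ρ) = 2 ^ finrank ℝ E * μ (ball x (ρ / 2)) := by
    rw [← measure_ball_two x x (ρ / 2)]
    congr 2
    ring
  refine (av_inc_triangle hf A measurableSet_ball (hsub.trans hb)
    (ball_ne_zero x (half_pos hρ)) (ball_ne_top x _) measurableSet_ball (ball_ne_zero x hρ)
    (ball_ne_top x ρ) x).trans ?_
  gcongr
  exact av_av_le hΩ hf hF hw A hρ hb hsub (ball_ne_zero x (half_pos hρ)) (ball_ne_top x _) h2.le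

theorem av_steps (hΩ : IsOpen Ω) (hf : ContinuousOn f Ω) (hF : LocallyIntegrableOn F Ω μ)
    (hw : WeakDeriv μ Ω f F) (A : E →L[ℝ] E') {x : E} {ρ : ℝ} (hρ : 0 < ρ)
    (hb : ball x ρ ⊆ Ω) {η : ℝ≥0∞}
    (hη : ∀ j : ℕ, av μ (ball x (ρ / 2 ^ j)) (fun z => ‖F z - A‖ₑ) ≤ η) (j : ℕ) :
    av μ (ball x ρ) (inc f A x) ≤ av μ (ball x (ρ / 2 ^ j)) (inc f A x) +
      4 ^ finrank ℝ E * ENNReal.ofReal (4 * ρ * (1 - (1 / 2) ^ j)) * η := by
  induction j with
  | zero => simp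
  | succ j ih =>
    have hj : 0 < ρ / 2 ^ j := by positivity
    have h1 := av_step (μ := μ) hΩ hf hF hw A hj
      ((ball_subset_ball (div_le_self hρ.le (one_le_pow₀ one_le_two))).trans hb)
    have e : ρ / 2 ^ j / 2 = ρ / 2 ^ (j + 1) := by rw [pow_succ]; field_simp
    rw [e] at h1
    refine ih.trans ((add_le_add_left h1 _).trans ?_)
    have hpow : (0 : ℝ) ≤ 1 - (1 / 2) ^ j := by
      have : ((1 : ℝ) / 2) ^ j ≤ 1 := pow_le_one₀ (by norm_num) (by norm_num)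
      linarith
    have e2 : ENNReal.ofReal (4 * ρ * (1 - (1 / 2) ^ (j + 1))) =
        ENNReal.ofReal (2 * (ρ / 2 ^ j)) + ENNReal.ofReal (4 * ρ * (1 - (1 / 2) ^ j)) := by
      rw [← ENNReal.ofReal_add (by positivity) (by positivity)]
      congr 1
      rw [pow_succ, one_div_pow]
      field_simp
      ring
    rw [e2, mul_add, add_mul, add_assoc]
    gcongr
    exact hη j

theorem tendsto_av_inc (hΩ : IsOpen Ω) (hf : ContinuousOn f Ω) (A : E →L[ℝ] E') {x : E}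
    (hx : x ∈ Ω) {ρ : ℝ} (hρ : 0 < ρ) :
    Tendsto (fun j : ℕ => av μ (ball x (ρ / 2 ^ j)) (inc f A x)) atTop (𝓝 0) := by
  rw [ENNReal.tendsto_nhds_zero]
  intro ε hε
  have hc : ContinuousAt (fun y => f y - f x - A (y - x)) x := by
    have h1 : ContinuousAt f x := hf.continuousAt (hΩ.mem_nhds hx)
    exact (h1.sub continuousAt_const).sub (A.continuous.comp (by fun_prop)).continuousAt
  have hc2 : ContinuousAt (fun y => ‖f y - f x - A (y - x)‖ₑ) x := hc.enorm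
  have h0 : ‖f x - f x - A (x - x)‖ₑ = 0 := by simp
  have h3 : ∀ᶠ y in 𝓝 x, ‖f y - f x - A (y - x)‖ₑ < ε := by
    refine hc2.eventually_lt continuousAt_const ?_
    rw [h0]
    exact hε
  obtain ⟨δ, hδ, hb⟩ := Metric.eventually_nhds_iff_ball.1 h3
  have ht : Tendsto (fun j : ℕ => ρ / 2 ^ j) atTop (𝓝 0) := by
    have := (tendsto_pow_atTop_nhds_zero_of_lt_one (r := (1 / 2 : ℝ)) (by norm_num)
      (by norm_num)).const_mul ρ
    simpa [div_eq_mul_inv] using this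
  filter_upwards [ht.eventually (gt_mem_nhds hδ)] with j hj
  refine av_le_of_le measurableSet_ball fun z hz => ?_
  exact (hb z (ball_subset_ball hj.le hz)).le

/-- The average increment over a ball at a point where all the smaller averages of `|F - A|` are
at most `η`. -/
theorem av_inc_le (hΩ : IsOpen Ω) (hf : ContinuousOn f Ω) (hF : LocallyIntegrableOn F Ω μ)
    (hw : WeakDeriv μ Ω f F) (A : E →L[ℝ] E') {x : E} {ρ : ℝ} (hρ : 0 < ρ)
    (hb : ball x ρ ⊆ Ω) {η : ℝ≥0∞}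
    (hη : ∀ j : ℕ, av μ (ball x (ρ / 2 ^ j)) (fun z => ‖F z - A‖ₑ) ≤ η) :
    av μ (ball x ρ) (inc f A x) ≤ 4 ^ finrank ℝ E * ENNReal.ofReal (4 * ρ) * η := by
  have hx : x ∈ Ω := hb (mem_ball_self hρ)
  have h1 : ∀ j : ℕ, av μ (ball x ρ) (inc f A x) ≤ av μ (ball x (ρ / 2 ^ j)) (inc f A x) +
      4 ^ finrank ℝ E * ENNReal.ofReal (4 * ρ) * η := by
    intro j
    refine (av_steps hΩ hf hF hw A hρ hb hη j).trans ?_
    have h3 : ENNReal.ofReal (4 * ρ * (1 - (1 / 2) ^ j)) ≤ ENNReal.ofReal (4 * ρ) := by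
      refine ENNReal.ofReal_le_ofReal ?_
      have : (0 : ℝ) ≤ (1 / 2) ^ j := by positivity
      nlinarith
    gcongr
  have h2 := (tendsto_av_inc (μ := μ) hΩ hf A hx hρ).add_const
    (4 ^ finrank ℝ E * ENNReal.ofReal (4 * ρ) * η)
  rw [zero_add] at h2
  exact ge_of_tendsto' h2 h1

omit [CompleteSpace E'] in
theorem av_mono_two (x y : E) {r : ℝ} (hr : 0 < r) (hsub : ball y r ⊆ ball x (2 * r))
    (h : E → ℝ≥0∞) :
    av μ (ball y r) h ≤ 2 ^ finrank ℝ E * av μ (ball x (2 * r)) h := by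
  unfold av
  have h0 := ball_ne_zero (μ := μ) y hr
  have ht := ball_ne_top (μ := μ) y r
  rw [measure_ball_two x y r]
  simp only [ENNReal.div_eq_inv_mul]
  rw [ENNReal.mul_inv (Or.inr ht) (Or.inr h0)]
  calc (μ (ball y r))⁻¹ * ∫⁻ z in ball y r, h z ∂μ
      ≤ (μ (ball y r))⁻¹ * ∫⁻ z in ball x (2 * r), h z ∂μ := by
        gcongr
    _ = (2 ^ finrank ℝ E * (2 ^ finrank ℝ E)⁻¹) * ((μ (ball y r))⁻¹ *
          ∫⁻ z in ball x (2 * r), h z ∂μ) := by
        rw [ENNReal.mul_inv_cancel (by positivity) (by finiteness), one_mul]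
    _ = _ := by ring

/-- **Hajłasz inequality.** -/
theorem hajlasz (hΩ : IsOpen Ω) (hf : ContinuousOn f Ω) (hF : LocallyIntegrableOn F Ω μ)
    (hw : WeakDeriv μ Ω f F) (A : E →L[ℝ] E') {x y : E} {r : ℝ} (hr : 0 < r)
    (hxy : ‖x - y‖ ≤ r) (hb : ball x (2 * r) ⊆ Ω) {η η' : ℝ≥0∞}
    (hη : ∀ j : ℕ, av μ (ball x (2 * r / 2 ^ j)) (fun z => ‖F z - A‖ₑ) ≤ η)
    (hη' : ∀ j : ℕ, av μ (ball y (r / 2 ^ j)) (fun z => ‖F z - A‖ₑ) ≤ η') :
    ‖f y - f x - A (y - x)‖ₑ ≤ 8 ^ finrank ℝ E * ENNReal.ofReal (8 * r) * (η + η') := by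
  have hsub : ball y r ⊆ ball x (2 * r) := by
    refine ball_subset_ball' ?_
    rw [dist_comm, dist_eq_norm]
    linarith
  have h2r : 0 < 2 * r := by linarith
  have a1 := av_inc_le (μ := μ) hΩ hf hF hw A h2r hb hη
  have a2 := av_inc_le (μ := μ) hΩ hf hF hw A hr (hsub.trans hb) hη'
  -- the increment between `x` and `y`
  have b1 : inc f A x y ≤ av μ (ball y r) (inc f A x) + av μ (ball y r) (inc f A y) := by
    have h1 : ∀ w ∈ ball y r, inc f A x y ≤ inc f A x w + inc f A y w := by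
      intro w _
      rw [inc_comm f A y w]
      exact inc_triangle f A x w y
    refine (le_av_of_le (μ := μ) measurableSet_ball (ball_ne_zero y hr) (ball_ne_top y r)
      h1).trans ?_
    unfold av
    rw [lintegral_add_left' (aemeasurable_inc hf A x measurableSet_ball (hsub.trans hb)),
      ENNReal.add_div]
  have b2 := av_mono_two (μ := μ) x y hr hsub (inc f A x)
  calc ‖f y - f x - A (y - x)‖ₑ = inc f A x y := rfl
    _ ≤ 2 ^ finrank ℝ E * (4 ^ finrank ℝ E * ENNReal.ofReal (4 * (2 * r)) * η) +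
        4 ^ finrank ℝ E * ENNReal.ofReal (4 * r) * η' :=
      b1.trans (add_le_add (b2.trans (mul_le_mul_right a1 _)) a2)
    _ ≤ 2 ^ finrank ℝ E * (4 ^ finrank ℝ E * ENNReal.ofReal (4 * (2 * r)) * η) +
        2 ^ finrank ℝ E * (4 ^ finrank ℝ E * ENNReal.ofReal (4 * (2 * r)) * η') := by
        have h1 : ENNReal.ofReal (4 * r) ≤ ENNReal.ofReal (4 * (2 * r)) :=
          ENNReal.ofReal_le_ofReal (by linarith)
        have h2 : (1 : ℝ≥0∞) ≤ 2 ^ finrank ℝ E := one_le_pow₀ one_le_two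
        refine add_le_add le_rfl ?_
        calc 4 ^ finrank ℝ E * ENNReal.ofReal (4 * r) * η'
            ≤ 4 ^ finrank ℝ E * ENNReal.ofReal (4 * (2 * r)) * η' := by gcongr
          _ = 1 * (4 ^ finrank ℝ E * ENNReal.ofReal (4 * (2 * r)) * η') := (one_mul _).symm
          _ ≤ _ := mul_le_mul_left h2 _
    _ = 8 ^ finrank ℝ E * ENNReal.ofReal (8 * r) * (η + η') := by
        have h8 : (8 : ℝ≥0∞) ^ finrank ℝ E = 2 ^ finrank ℝ E * 4 ^ finrank ℝ E := by
          rw [← mul_pow]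
          norm_num
        have h9 : 4 * (2 * r) = 8 * r := by ring
        rw [h8, h9]
        ring

end

end Vale.Agent.P073.HB
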