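import Mathlib.MeasureTheory.Function.Egorov
import Mathlib.MeasureTheory.Covering.BesicovitchVectorSpace
import Mathlib.MeasureTheory.Covering.Differentiation
import Mathlib.MeasureTheory.Measure.Lebesgue.EqHaar
import Mathlib.MeasureTheory.Constructions.BorelSpace.Metric

/-!
# P073: Lusin's theorem and uniform `L^p` Lebesgue points
-/

namespace Vale.Agent.P073.HB

open MeasureTheory Set Filter Topology Metric Module
open scoped ENNReal NNReal

/-- **Lusin's theorem** for measurable maps into a second countable space. -/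
theorem exists_lusin {E X : Type*} [TopologicalSpace E] [T2Space E] [MeasurableSpace E]
    [OpensMeasurableSpace E] {μ : Measure E} [μ.InnerRegularCompactLTTop]
    [TopologicalSpace X] [SecondCountableTopology X] [MeasurableSpace X] [OpensMeasurableSpace X]
    {G : E → X} (hG : Measurable G) {K : Set E} (hK : MeasurableSet K) (hμK : μ K ≠ ⊤)
    {ε : ℝ≥0∞} (hε : ε ≠ 0) :
    ∃ T ⊆ K, IsCompact T ∧ μ (K \ T) < ε ∧ ContinuousOn G T := by
  classical
  have hε2 : ε / 2 ≠ 0 := (ENNReal.half_pos hε).ne'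
  set B := TopologicalSpace.countableBasis X with hB
  have hBb := TopologicalSpace.isBasis_countableBasis X
  have : Countable B := (TopologicalSpace.countable_countableBasis X).to_subtype
  obtain ⟨δ, hδ0, hδ⟩ := ENNReal.exists_pos_sum_of_countable' hε2 B
  obtain ⟨K₀, hK₀K, hK₀, hK₀μ⟩ := hK.exists_isCompact_diff_lt hμK hε2
  have h1 : ∀ U : B, ∃ C ⊆ K₀ ∩ G ⁻¹' U, IsCompact C ∧ μ ((K₀ ∩ G ⁻¹' U) \ C) < δ U / 2 := by
    intro U
    have hUo : IsOpen (U : Set X) := hBb.isOpen U.2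
    have hm : MeasurableSet (K₀ ∩ G ⁻¹' U) := hK₀.measurableSet.inter (hG hUo.measurableSet)
    exact hm.exists_isCompact_diff_lt
      (ne_top_of_le_ne_top hμK (measure_mono (inter_subset_left.trans hK₀K)))
      (ENNReal.half_pos (hδ0 U).ne').ne'
  have h2 : ∀ U : B, ∃ C ⊆ K₀ \ G ⁻¹' U, IsCompact C ∧ μ ((K₀ \ G ⁻¹' U) \ C) < δ U / 2 := by
    intro U
    have hUo : IsOpen (U : Set X) := hBb.isOpen U.2
    have hm : MeasurableSet (K₀ \ G ⁻¹' U) := hK₀.measurableSet.diff (hG hUo.measurableSet)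
    exact hm.exists_isCompact_diff_lt
      (ne_top_of_le_ne_top hμK (measure_mono (sdiff_subset.trans hK₀K)))
      (ENNReal.half_pos (hδ0 U).ne').ne'
  choose C hCs hCc hCμ using h1
  choose D hDs hDc hDμ using h2
  refine ⟨K₀ ∩ ⋂ U, (C U ∪ D U), inter_subset_left.trans hK₀K, ?_, ?_, ?_⟩
  · exact hK₀.inter_right (isClosed_iInter fun U => ((hCc U).union (hDc U)).isClosed)
  · have hsub : K \ (K₀ ∩ ⋂ U, (C U ∪ D U)) ⊆ (K \ K₀) ∪ ⋃ U : B,
        (((K₀ ∩ G ⁻¹' U) \ C U) ∪ ((K₀ \ G ⁻¹' U) \ D U)) := by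
      rintro x ⟨hxK, hx⟩
      by_cases hx0 : x ∈ K₀
      · right
        have : ∃ U : B, x ∉ C U ∪ D U := by
          by_contra h
          push Not at h
          exact hx ⟨hx0, mem_iInter.2 h⟩
        obtain ⟨U, hU⟩ := this
        rw [mem_iUnion]
        refine ⟨U, ?_⟩
        by_cases hxU : x ∈ G ⁻¹' (U : Set X)
        · exact Or.inl ⟨⟨hx0, hxU⟩, fun h => hU (Or.inl h)⟩
        · exact Or.inr ⟨⟨hx0, hxU⟩, fun h => hU (Or.inr h)⟩
      · exact Or.inl ⟨hxK, hx0⟩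
    calc μ (K \ (K₀ ∩ ⋂ U, (C U ∪ D U)))
        ≤ μ (K \ K₀) + μ (⋃ U : B, (((K₀ ∩ G ⁻¹' U) \ C U) ∪ ((K₀ \ G ⁻¹' U) \ D U))) :=
          (measure_mono hsub).trans (measure_union_le _ _)
      _ ≤ μ (K \ K₀) + ∑' U : B, δ U := by
          refine add_le_add le_rfl ((measure_iUnion_le _).trans (ENNReal.tsum_le_tsum fun U => ?_))
          refine (measure_union_le _ _).trans ?_
          calc _ ≤ δ U / 2 + δ U / 2 := add_le_add (hCμ U).le (hDμ U).le
            _ = δ U := ENNReal.add_halves _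
      _ < ε / 2 + ε / 2 := ENNReal.add_lt_add hK₀μ hδ
      _ = ε := ENNReal.add_halves _
  · rintro x ⟨hx0, hx⟩
    rw [ContinuousWithinAt, hBb.nhds_hasBasis.tendsto_right_iff]
    rintro U ⟨hUB, hxU⟩
    have hxD : x ∉ D ⟨U, hUB⟩ := fun h => (hDs ⟨U, hUB⟩ h).2 hxU
    have hn : (D ⟨U, hUB⟩)ᶜ ∈ 𝓝 x := (hDc ⟨U, hUB⟩).isClosed.isOpen_compl.mem_nhds hxD
    filter_upwards [inter_mem_nhdsWithin (K₀ ∩ ⋂ U, (C U ∪ D U)) hn] with y hy
    have h3 := mem_iInter.1 hy.1.2 ⟨U, hUB⟩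
    rcases h3 with h3 | h3
    · exact (hCs ⟨U, hUB⟩ h3).2
    · exact absurd h3 hy.2

section

variable {E X : Type*} [NormedAddCommGroup E] [NormedSpace ℝ E] [FiniteDimensional ℝ E]
  [MeasurableSpace E] [BorelSpace E] {μ : Measure E} [μ.IsAddHaarMeasure]
  [NormedAddCommGroup X] [SecondCountableTopology X] [MeasurableSpace X]
  [BorelSpace X]

omit [FiniteDimensional ℝ E] in
theorem measurable_osc [SFinite μ] [SecondCountableTopology E] {G : E → X} (hG : Measurable G)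
    (p r : ℝ) :
    Measurable fun x => ∫⁻ z in ball x r, ‖G z - G x‖ₑ ^ p ∂μ := by
  have e : ∀ x, ∫⁻ z in ball x r, ‖G z - G x‖ₑ ^ p ∂μ =
      ∫⁻ z, ({q : E × E | dist q.2 q.1 < r}.indicator
        (fun q => ‖G q.2 - G q.1‖ₑ ^ p)) (x, z) ∂μ := by
    intro x
    rw [← lintegral_indicator measurableSet_ball]
    refine lintegral_congr fun z => ?_
    simp only [indicator, mem_ball, Set.mem_ofPred_eq]
  simp only [e]
  refine Measurable.lintegral_prod_right' (f := fun q : E × E =>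
    ({q : E × E | dist q.2 q.1 < r}.indicator (fun q => ‖G q.2 - G q.1‖ₑ ^ p)) q) ?_
  refine Measurable.indicator ?_ ?_
  · exact (((hG.comp measurable_snd).sub (hG.comp measurable_fst)).enorm).pow_const p
  · exact (isOpen_lt (by fun_prop) continuous_const).measurableSet

/-- **`L^p` Lebesgue points.** -/
theorem ae_tendsto_osc {G : E → X} (hG : Measurable G) {p : ℝ} (hp : 1 ≤ p) {U : Set E}
    (hU : IsOpen U) (hμU : μ U ≠ ⊤) (hGU : ∫⁻ z in U, ‖G z‖ₑ ^ p ∂μ ≠ ⊤) :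
    ∀ᵐ x ∂μ, x ∈ U → Tendsto (fun k : ℕ => (∫⁻ z in ball x (1 / 2 ^ k), ‖G z - G x‖ₑ ^ p ∂μ) /
      μ (ball x (1 / 2 ^ k))) atTop (𝓝 0) := by
  have hp0 : 0 < p := by linarith
  set c : ℕ → X := TopologicalSpace.denseSeq X with hc
  have hgm : ∀ n, Measurable fun z => ‖G z - c n‖ₑ ^ p := fun n =>
    ((hG.sub measurable_const).enorm).pow_const p
  have h1 : ∀ n, ∀ᵐ x ∂μ, Tendsto (fun a => (∫⁻ y in a, U.indicator (fun z => ‖G z - c n‖ₑ ^ p) y
      ∂μ) / μ a) ((Besicovitch.vitaliFamily μ).filterAt x)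
      (𝓝 (U.indicator (fun z => ‖G z - c n‖ₑ ^ p) x)) := by
    intro n
    refine (Besicovitch.vitaliFamily μ).ae_tendsto_lintegral_div
      ((hgm n).indicator hU.measurableSet).aemeasurable ?_
    rw [lintegral_indicator hU.measurableSet]
    refine ne_top_of_le_ne_top (b := (2 : ℝ≥0∞) ^ (p - 1) * ((∫⁻ z in U, ‖G z‖ₑ ^ p ∂μ) +
      ‖c n‖ₑ ^ p * μ U)) ?_ ?_
    · refine ENNReal.mul_ne_top (ENNReal.rpow_ne_top_of_nonneg (by linarith) (by norm_num)) ?_
      refine ENNReal.add_ne_top.2 ⟨hGU, ENNReal.mul_ne_top ?_ hμU⟩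
      exact ENNReal.rpow_ne_top_of_nonneg hp0.le enorm_ne_top
    · rw [← setLIntegral_const, ← lintegral_add_right _ measurable_const,
        ← lintegral_const_mul' _ _ (ENNReal.rpow_ne_top_of_nonneg (by linarith) (by norm_num))]
      refine lintegral_mono fun z => ?_
      calc ‖G z - c n‖ₑ ^ p ≤ (‖G z‖ₑ + ‖c n‖ₑ) ^ p :=
            ENNReal.rpow_le_rpow enorm_sub_le hp0.le
        _ ≤ _ := ENNReal.rpow_add_le_mul_rpow_add_rpow _ _ hp
  filter_upwards [ae_all_iff.2 h1] with x hx hxU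
  rw [ENNReal.tendsto_nhds_zero]
  intro ε hε
  -- choose `c n` close to `G x`
  set κ : ℝ≥0∞ := (2 : ℝ≥0∞) ^ (p - 1) with hκ
  have hκt : κ ≠ ⊤ := ENNReal.rpow_ne_top_of_nonneg (by linarith) (by norm_num)
  have hκ0 : κ ≠ 0 := (ENNReal.rpow_pos (by norm_num) (by norm_num)).ne'
  obtain ⟨θ, hθ0, hθ⟩ : ∃ θ : ℝ≥0∞, 0 < θ ∧ κ * (θ + θ) ≤ ε := by
    rcases eq_or_ne ε ⊤ with rfl | hεt
    · exact ⟨1, one_pos, le_top⟩
    · refine ⟨ε / κ / 2, ?_, ?_⟩
      · exact ENNReal.half_pos (ENNReal.div_pos hε.ne' hκt).ne'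
      · rw [ENNReal.add_halves, ENNReal.mul_div_cancel hκ0 hκt]
  have h2 : ∃ n, ‖G x - c n‖ₑ ^ p < θ := by
    have h3 : ∀ᶠ y in 𝓝 (G x), ‖G x - y‖ₑ ^ p < θ := by
      have h4 : ContinuousAt (fun y => ‖G x - y‖ₑ ^ p) (G x) := by
        have : Continuous fun y => ‖G x - y‖ₑ := by fun_prop
        exact (ENNReal.continuous_rpow_const.comp this).continuousAt
      refine h4.eventually_lt continuousAt_const ?_
      simp only [sub_self, enorm_zero]
      rw [ENNReal.zero_rpow_of_pos hp0]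
      exact hθ0
    obtain ⟨n, hn⟩ := (TopologicalSpace.denseRange_denseSeq X).exists_mem_open
      isOpen_interior ⟨G x, mem_interior_iff_mem_nhds.2 h3⟩
    have h9 := interior_subset hn
    rw [Set.mem_ofPred_eq] at h9
    exact ⟨n, h9⟩
  obtain ⟨n, hn⟩ := h2
  -- radii `2 ^ (-k)`
  have ht : Tendsto (fun k : ℕ => (1 : ℝ) / 2 ^ k) atTop (𝓝[>] 0) := by
    rw [tendsto_nhdsWithin_iff]
    refine ⟨?_, Eventually.of_forall fun k => ?_⟩
    · have := tendsto_pow_atTop_nhds_zero_of_lt_one (r := (1 / 2 : ℝ)) (by norm_num)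
        (by norm_num)
      simpa [one_div_pow] using this
    · rw [mem_Ioi]
      positivity
  have h4 := ((hx n).comp (Besicovitch.tendsto_filterAt μ x)).comp ht
  rw [indicator_of_mem hxU] at h4
  have h5 := h4.eventually (gt_mem_nhds hn)
  obtain ⟨ρ, hρ, hρU⟩ := Metric.isOpen_iff.1 hU x hxU
  have h6 : ∀ᶠ k : ℕ in atTop, (1 : ℝ) / 2 ^ k < ρ :=
    (ht.mono_right nhdsWithin_le_nhds).eventually (gt_mem_nhds hρ)
  filter_upwards [h5, h6] with k hk5 hk6
  set r : ℝ := 1 / 2 ^ k with hr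
  have hr0 : 0 < r := by positivity
  have hμ0 : μ (ball x r) ≠ 0 := (measure_ball_pos μ x hr0).ne'
  have hμt : μ (ball x r) ≠ ⊤ := measure_ball_lt_top.ne
  simp only [Function.comp_apply] at hk5
  rw [← hr] at hk5
  have h7 : (∫⁻ z in ball x r, ‖G z - c n‖ₑ ^ p ∂μ) ≤ θ * μ (ball x r) := by
    have h8 : ∫⁻ z in ball x r, ‖G z - c n‖ₑ ^ p ∂μ ≤
        ∫⁻ z in closedBall x r, U.indicator (fun z => ‖G z - c n‖ₑ ^ p) z ∂μ := by
      calc ∫⁻ z in ball x r, ‖G z - c n‖ₑ ^ p ∂μ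
          = ∫⁻ z in ball x r, U.indicator (fun z => ‖G z - c n‖ₑ ^ p) z ∂μ := by
            refine setLIntegral_congr_fun measurableSet_ball fun z hz => ?_
            simp only [indicator_of_mem (hρU (ball_subset_ball hk6.le hz))]
        _ ≤ _ := lintegral_mono_set ball_subset_closedBall
    refine h8.trans ?_
    have h9 : μ (closedBall x r) = μ (ball x r) := by
      rw [Measure.addHaar_closedBall μ x hr0.le, Measure.addHaar_ball_of_pos μ x hr0]
    rw [h9] at hk5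
    rw [← ENNReal.div_le_iff_le_mul (Or.inl hμ0) (Or.inl hμt)]
    exact hk5.le
  refine ENNReal.div_le_of_le_mul ?_
  calc ∫⁻ z in ball x r, ‖G z - G x‖ₑ ^ p ∂μ
      ≤ ∫⁻ z in ball x r, κ * (‖G z - c n‖ₑ ^ p + ‖G x - c n‖ₑ ^ p) ∂μ := by
        refine lintegral_mono fun z => ?_
        calc ‖G z - G x‖ₑ ^ p = ‖(G z - c n) - (G x - c n)‖ₑ ^ p := by
              rw [sub_sub_sub_cancel_right]
          _ ≤ (‖G z - c n‖ₑ + ‖G x - c n‖ₑ) ^ p :=
            ENNReal.rpow_le_rpow enorm_sub_le hp0.le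
          _ ≤ _ := ENNReal.rpow_add_le_mul_rpow_add_rpow _ _ hp
    _ = κ * ((∫⁻ z in ball x r, ‖G z - c n‖ₑ ^ p ∂μ) + ‖G x - c n‖ₑ ^ p * μ (ball x r)) := by
        rw [lintegral_const_mul' _ _ hκt, lintegral_add_right _ measurable_const,
          setLIntegral_const]
    _ ≤ κ * (θ * μ (ball x r) + θ * μ (ball x r)) := by gcongr
    _ = κ * (θ + θ) * μ (ball x r) := by ring
    _ ≤ ε * μ (ball x r) := by gcongr

/-- **Uniform `L^p` Lebesgue points.** -/
theorem exists_uniform_lebesgue {G : E → X} {Ω : Set E} (hΩ : IsOpen Ω) (hμΩ : μ Ω ≠ ⊤)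
    (hG : AEMeasurable G (μ.restrict Ω)) {p : ℝ} (hp : 1 ≤ p)
    (hGp : ∫⁻ z in Ω, ‖G z‖ₑ ^ p ∂μ ≠ ⊤) {K : Set E} (hK : MeasurableSet K) (hKΩ : K ⊆ Ω)
    {ε : ℝ≥0∞} (hε : ε ≠ 0) :
    ∃ T ⊆ K, IsCompact T ∧ μ (K \ T) < ε ∧ ContinuousOn G T ∧
      ∀ η : ℝ≥0∞, η ≠ 0 → ∃ δ > 0, (∀ x ∈ T, ball x δ ⊆ Ω) ∧
        ∀ x ∈ T, ∀ r, 0 < r → r ≤ δ →
          ∫⁻ z in ball x r, ‖G z - G x‖ₑ ^ p ∂μ ≤ η * μ (ball x r) := by
  classical
  have hε2 : ε / 2 ≠ 0 := (ENNReal.half_pos hε).ne'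
  have hμK : μ K ≠ ⊤ := ne_top_of_le_ne_top hμΩ (measure_mono hKΩ)
  -- the measurable representative
  set H : E → X := hG.mk G with hH
  have hHm : Measurable H := hG.measurable_mk
  have hGH : ∀ᵐ x ∂μ, x ∈ Ω → G x = H x := (ae_restrict_iff' hΩ.measurableSet).1 hG.ae_eq_mk
  have hHp : ∫⁻ z in Ω, ‖H z‖ₑ ^ p ∂μ ≠ ⊤ := by
    have : ∫⁻ z in Ω, ‖H z‖ₑ ^ p ∂μ = ∫⁻ z in Ω, ‖G z‖ₑ ^ p ∂μ := by
      refine setLIntegral_congr_fun_ae hΩ.measurableSet ?_
      filter_upwards [hGH] with x hx hxΩ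
      rw [hx hxΩ]
    rwa [this]
  have hleb := ae_tendsto_osc (μ := μ) hHm hp hΩ hμΩ hHp
  obtain ⟨N, hNs, hNm, hN0⟩ := exists_measurable_superset_of_null (ae_iff.1 hGH)
  have hKN : MeasurableSet (K \ N) := hK.diff hNm
  -- the truncated oscillations
  set osc : ℕ → E → ℝ≥0∞ := fun k x => (∫⁻ z in ball x (1 / 2 ^ k), ‖H z - H x‖ₑ ^ p ∂μ) /
      μ (ball x (1 / 2 ^ k)) with hosc
  have hoscm : ∀ k, Measurable (osc k) := by
    intro k
    have : osc k = fun x => (∫⁻ z in ball x (1 / 2 ^ k), ‖H z - H x‖ₑ ^ p ∂μ) /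
      μ (ball 0 (1 / 2 ^ k)) := by
      funext x
      simp only [hosc]
      rw [Measure.addHaar_ball_center μ x]
    rw [this]
    exact (measurable_osc hHm p _).div_const _
  obtain ⟨e, he0, he1, he2⟩ := ENNReal.lt_iff_exists_real_btwn.1 (pos_iff_ne_zero.2 hε2)
  have he0' : 0 < e := by rwa [ENNReal.ofReal_pos] at he1
  obtain ⟨t, htK, htm, htμ, htu⟩ := tendstoUniformlyOn_of_ae_tendsto (μ := μ)
    (f := fun k x => (min (osc k x) 1).toReal) (g := fun _ => (0 : ℝ)) (s := K \ N)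
    (fun k => ((hoscm k).min measurable_const).ennreal_toReal.stronglyMeasurable)
    stronglyMeasurable_const hKN (ne_top_of_le_ne_top hμK (measure_mono sdiff_subset)) (by
      filter_upwards [hleb] with x hx hxK
      have h1 := (hx (hKΩ hxK.1)).min (tendsto_const_nhds (x := (1 : ℝ≥0∞)))
      rw [min_eq_left (zero_le)] at h1
      have h2 := (ENNReal.tendsto_toReal (a := 0) ENNReal.zero_ne_top).comp h1
      rw [ENNReal.toReal_zero] at h2
      exact h2) he0'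
  obtain ⟨T, hTs, hTc, hTμ, hTG⟩ := exists_lusin (μ := μ) hHm (hKN.diff htm)
    (ne_top_of_le_ne_top hμK (measure_mono (sdiff_subset.trans sdiff_subset))) hε2
  have hTK : T ⊆ K := fun x hx => (hTs hx).1.1
  have hTeq : ∀ x ∈ T, G x = H x := by
    intro x hx
    by_contra h
    exact (hTs hx).1.2 (hNs fun hh => h (hh (hKΩ (hTK hx))))
  refine ⟨T, hTK, hTc, ?_, hTG.congr hTeq, ?_⟩
  · have hsub : K \ T ⊆ N ∪ (t ∪ (((K \ N) \ t) \ T)) := by
      rintro x ⟨hxK, hxT⟩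
      by_cases h1 : x ∈ N
      · exact Or.inl h1
      · by_cases h2 : x ∈ t
        · exact Or.inr (Or.inl h2)
        · exact Or.inr (Or.inr ⟨⟨⟨hxK, h1⟩, h2⟩, hxT⟩)
    calc μ (K \ T) ≤ μ N + (μ t + μ (((K \ N) \ t) \ T)) :=
          (measure_mono hsub).trans ((measure_union_le _ _).trans
            (add_le_add le_rfl (measure_union_le _ _)))
      _ = μ t + μ (((K \ N) \ t) \ T) := by rw [hN0, zero_add]
      _ < ε / 2 + ε / 2 := ENNReal.add_lt_add (htμ.trans_lt he2) hTμ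
      _ = ε := ENNReal.add_halves _
  · intro η hη
    set n := finrank ℝ E with hn
    have h2n : (2 : ℝ≥0∞) ^ n ≠ ⊤ := by finiteness
    have h2n0 : (2 : ℝ≥0∞) ^ n ≠ 0 := by positivity
    obtain ⟨δ₀, hδ₀, hδ₀Ω⟩ := hTc.exists_thickening_subset_open hΩ (hTK.trans hKΩ)
    have hpos : 0 < min (η / 2 ^ n) 1 :=
      lt_min (ENNReal.div_pos hη h2n) one_pos
    obtain ⟨a, ha0, ha1, ha2⟩ := ENNReal.lt_iff_exists_real_btwn.1 hpos
    have ha0' : 0 < a := by rwa [ENNReal.ofReal_pos] at ha1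
    obtain ⟨k₀, hk₀⟩ := eventually_atTop.1 ((Metric.tendstoUniformlyOn_iff.1 htu) a ha0')
    have hk₁ : ∀ k ≥ k₀, ∀ x ∈ T, osc k x ≤ ENNReal.ofReal a := by
      intro k hk x hx
      have h1 := hk₀ k hk x (hTs hx)
      rw [dist_comm, Real.dist_eq, sub_zero, abs_of_nonneg ENNReal.toReal_nonneg] at h1
      have h2 : min (osc k x) 1 < ENNReal.ofReal a := by
        rw [ENNReal.lt_ofReal_iff_toReal_lt]
        · exact h1
        · exact ne_top_of_le_ne_top ENNReal.one_ne_top (min_le_right _ _)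
      rcases min_lt_iff.1 h2 with h3 | h3
      · exact h3.le
      · exact absurd (ha2.trans_le (min_le_right _ _)) h3.not_gt
    refine ⟨min δ₀ (1 / 2 ^ k₀), lt_min hδ₀ (by positivity), ?_, ?_⟩
    · intro x hx
      refine (ball_subset_ball (min_le_left _ _)).trans (Subset.trans ?_ hδ₀Ω)
      exact ball_subset_thickening hx δ₀
    · intro x hx r hr0 hr
      have hrδ : r ≤ δ₀ := hr.trans (min_le_left _ _)
      have hrk : r ≤ 1 / 2 ^ k₀ := hr.trans (min_le_right _ _)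
      have hr1 : r ≤ 1 := hrk.trans (by
        rw [div_le_one (by positivity)]
        exact one_le_pow₀ one_le_two)
      obtain ⟨k, hk1, hk2⟩ := exists_nat_pow_near_of_lt_one (y := (1 / 2 : ℝ)) hr0 hr1
        (by norm_num) (by norm_num)
      rw [one_div_pow] at hk1 hk2
      have hkk : k₀ ≤ k := by
        have h1 : (1 : ℝ) / 2 ^ (k + 1) < 1 / 2 ^ k₀ := hk1.trans_le hrk
        rw [one_div_lt_one_div (by positivity) (by positivity)] at h1
        have := (pow_lt_pow_iff_right₀ (one_lt_two (α := ℝ))).1 h1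
        omega
      have hbΩ : ball x r ⊆ Ω := (ball_subset_ball hrδ).trans
        ((ball_subset_thickening hx δ₀).trans hδ₀Ω)
      have h3 : ∫⁻ z in ball x r, ‖G z - G x‖ₑ ^ p ∂μ = ∫⁻ z in ball x r, ‖H z - H x‖ₑ ^ p ∂μ := by
        refine setLIntegral_congr_fun_ae measurableSet_ball ?_
        filter_upwards [hGH] with z hz hzb
        rw [hz (hbΩ hzb), hTeq x hx]
      have h4 := hk₁ k hkk x hx
      simp only [hosc] at h4
      have hb0 : μ (ball x ((1 : ℝ) / 2 ^ k)) ≠ 0 := (measure_ball_pos μ x (by positivity)).ne'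
      have hbt : μ (ball x ((1 : ℝ) / 2 ^ k)) ≠ ⊤ := measure_ball_lt_top.ne
      rw [ENNReal.div_le_iff_le_mul (Or.inl hb0) (Or.inl hbt)] at h4
      have h5 : μ (ball x ((1 : ℝ) / 2 ^ k)) = 2 ^ n * μ (ball x ((1 : ℝ) / 2 ^ (k + 1))) := by
        have e1 : (1 : ℝ) / 2 ^ k = 2 * (1 / 2 ^ (k + 1)) := by
          rw [pow_succ]
          field_simp
        rw [e1, Measure.addHaar_ball_mul_of_pos μ x two_pos, Measure.addHaar_ball_center μ x,
          ENNReal.ofReal_pow (by norm_num), ENNReal.ofReal_ofNat]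
      calc ∫⁻ z in ball x r, ‖G z - G x‖ₑ ^ p ∂μ
          = ∫⁻ z in ball x r, ‖H z - H x‖ₑ ^ p ∂μ := h3
        _ ≤ ∫⁻ z in ball x ((1 : ℝ) / 2 ^ k), ‖H z - H x‖ₑ ^ p ∂μ :=
            lintegral_mono_set (ball_subset_ball hk2)
        _ ≤ ENNReal.ofReal a * μ (ball x ((1 : ℝ) / 2 ^ k)) := h4
        _ = ENNReal.ofReal a * 2 ^ n * μ (ball x ((1 : ℝ) / 2 ^ (k + 1))) := by
            rw [h5, mul_assoc]
        _ ≤ η * μ (ball x r) := by
            have h6 : ENNReal.ofReal a * 2 ^ n ≤ η := by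
              rw [← ENNReal.le_div_iff_mul_le (Or.inl h2n0) (Or.inl h2n)]
              exact (ha2.trans_le (min_le_left _ _)).le
            exact mul_le_mul' h6 (measure_mono (ball_subset_ball hk1.le))

end

end Vale.Agent.P073.HB
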