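import Vale.Agent.P073.HB.Haj2
import Vale.Agent.P073.HB.Haj3

/-!
# P073: `L^p` Poincaré and Hajłasz inequalities, uniform Lusin sets
-/

namespace Vale.Agent.P073.HB

open MeasureTheory Set Filter Topology Metric Module
open scoped ENNReal ContDiff NNReal

section

variable {E E' : Type*} [NormedAddCommGroup E] [NormedSpace ℝ E] [FiniteDimensional ℝ E]
  [MeasurableSpace E] [BorelSpace E] {μ : Measure E} [μ.IsAddHaarMeasure]
  [NormedAddCommGroup E'] [NormedSpace ℝ E'] [CompleteSpace E']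
  {Ω : Set E} {f : E → E'} {F : E → (E →L[ℝ] E')}

/-- **`L^p` Poincaré inequality on convex bounded sets**, double integral form. -/
theorem poincareP (hΩ : IsOpen Ω)
    (hf : ContinuousOn f Ω) (hF : LocallyIntegrableOn F Ω μ) (hw : WeakDeriv μ Ω f F)
    (A : E →L[ℝ] E') {p : ℝ} (hp : 1 ≤ p) {B : Set E} (hB : IsOpen B) (hBc : Convex ℝ B)
    (hBΩ : B ⊆ Ω) {r : ℝ} (hr : ∀ x ∈ B, ∀ y ∈ B, ‖y - x‖ < r) :
    ∫⁻ x in B, ∫⁻ y in B, inc f A x y ^ p ∂μ ∂μ ≤
      ENNReal.ofReal r ^ p * μ (ball 0 r) * ∫⁻ z in B, ‖F z - A‖ₑ ^ p ∂μ := by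
  classical
  have hp0 : 0 < p := by linarith
  set k : E → ℝ≥0∞ := B.indicator fun z => ‖F z - A‖ₑ with hk
  have hkm : AEMeasurable k μ := by
    have := aemeasurable_pow hF hB.measurableSet hBΩ A 1
    simpa only [ENNReal.rpow_one] using this
  have hkp : AEMeasurable (fun z => k z ^ p) μ := hkm.pow_const p
  set G : E → E → ℝ≥0∞ := fun x y => B.indicator (fun x => B.indicator
    (fun y => inc f A x y ^ p) y) x with hG
  have hfm : AEStronglyMeasurable (B.indicator f) μ := by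
    rw [aestronglyMeasurable_indicator_iff hB.measurableSet]
    exact (hf.mono hBΩ).aestronglyMeasurable hB.measurableSet
  have hGm : AEMeasurable (Function.uncurry G) (μ.prod μ) := by
    have h1 : AEStronglyMeasurable (fun p : E × E => B.indicator f p.2 - B.indicator f p.1 -
        A (p.2 - p.1)) (μ.prod μ) := by
      refine (hfm.comp_snd.sub hfm.comp_fst).sub ?_
      exact (A.continuous.comp (by fun_prop)).aestronglyMeasurable
    have h2 := (h1.enorm.pow_const p).indicator (hB.measurableSet.prod hB.measurableSet)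
    refine h2.congr (ae_of_all _ fun p => ?_)
    simp only [hG, inc, Function.uncurry, indicator, mem_prod]
    by_cases h1 : p.1 ∈ B <;> by_cases h2 : p.2 ∈ B <;> simp [h1, h2]
  have e1 : ∫⁻ x in B, ∫⁻ y in B, inc f A x y ^ p ∂μ ∂μ = ∫⁻ x, ∫⁻ y, G x y ∂μ ∂μ := by
    rw [← lintegral_indicator hB.measurableSet]
    refine lintegral_congr fun x => ?_
    by_cases hx : x ∈ B
    · simp only [hG, indicator_of_mem hx]
      rw [lintegral_indicator hB.measurableSet]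
    · simp only [hG, indicator_of_notMem hx, lintegral_zero]
  have e2 : ∫⁻ x, ∫⁻ y, G x y ∂μ ∂μ = ∫⁻ x, ∫⁻ v, G x (x + v) ∂μ ∂μ := by
    refine lintegral_congr fun x => ?_
    exact (lintegral_add_left_eq_self (fun y => G x y) x).symm
  have hmp : MeasurePreserving (fun p : E × E => (p.1, p.1 + p.2)) (μ.prod μ) (μ.prod μ) :=
    measurePreserving_prod_add μ μ
  have hGm2 : AEMeasurable (Function.uncurry fun x v => G x (x + v)) (μ.prod μ) :=
    hGm.comp_quasiMeasurePreserving hmp.quasiMeasurePreserving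
  have e3 : ∫⁻ x, ∫⁻ v, G x (x + v) ∂μ ∂μ = ∫⁻ v, ∫⁻ x, G x (x + v) ∂μ ∂μ :=
    lintegral_lintegral_swap hGm2
  rw [e1, e2, e3]
  have key : ∀ v, ∫⁻ x, G x (x + v) ∂μ ≤
      (ball (0 : E) r).indicator
        (fun _ => ENNReal.ofReal r ^ p * ∫⁻ z in B, ‖F z - A‖ₑ ^ p ∂μ) v := by
    intro v
    by_cases hv : v ∈ ball (0 : E) r
    · rw [indicator_of_mem hv]
      set Bv : Set E := B ∩ (fun x => x + v) ⁻¹' B with hBv
      have hBvm : MeasurableSet Bv :=
        hB.measurableSet.inter (hB.preimage (by fun_prop)).measurableSet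
      have hseg : ∀ x ∈ Bv, ∀ s ∈ Icc (0 : ℝ) 1, x + s • v ∈ B := by
        intro x hx s hs
        have := hBc.add_smul_sub_mem hx.1 hx.2 hs
        simpa using this
      have hms : ∀ᵐ x ∂μ, AEMeasurable (fun s : ℝ => k (x + s • v))
          (volume.restrict (Ioc (0 : ℝ) 1)) := by
        have h1 := (aemeasurable_shear hkm 0 v).aestronglyMeasurable.prodMk_left
        filter_upwards [h1] with x hx
        have := hx.aemeasurable
        simpa only [add_zero] using this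
      have h1 : ∀ᵐ x ∂μ, G x (x + v) ≤
          Bv.indicator (fun x => ‖v‖ₑ ^ p * ∫⁻ s in Ioc (0 : ℝ) 1, k (x + s • v) ^ p) x := by
        filter_upwards [ae_increment_le (μ := μ) hΩ hf hF hw A v, hms] with x hx hxm
        by_cases hxB : x ∈ Bv
        · rw [indicator_of_mem hxB]
          simp only [hG, inc, indicator_of_mem hxB.1, indicator_of_mem (show x + v ∈ B from hxB.2)]
          have h2 := hx (fun s hs => hBΩ (hseg x hxB s hs))
          rw [add_sub_cancel_left]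
          have h3 : ‖f (x + v) - f x - A v‖ₑ ≤ ‖v‖ₑ * ∫⁻ s in Ioc (0 : ℝ) 1, k (x + s • v) := by
            refine h2.trans (mul_le_mul_right ?_ _)
            refine setLIntegral_mono' measurableSet_Ioc fun s hs => ?_
            simp only [hk]
            rw [indicator_of_mem (hseg x hxB s ⟨hs.1.le, hs.2⟩)]
          calc ‖f (x + v) - f x - A v‖ₑ ^ p
              ≤ (‖v‖ₑ * ∫⁻ s in Ioc (0 : ℝ) 1, k (x + s • v)) ^ p :=
                ENNReal.rpow_le_rpow h3 hp0.le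
            _ = ‖v‖ₑ ^ p * (∫⁻ s in Ioc (0 : ℝ) 1, k (x + s • v)) ^ p :=
                ENNReal.mul_rpow_of_nonneg _ _ hp0.le
            _ ≤ _ := mul_le_mul_right (lintegral_rpow_le hp hxm) _
        · have : G x (x + v) = 0 := by
            simp only [hG]
            by_cases hx1 : x ∈ B
            · rw [indicator_of_mem hx1, indicator_of_notMem]
              exact fun h => hxB ⟨hx1, h⟩
            · rw [indicator_of_notMem hx1]
          rw [this]
          exact zero_le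
      have hvt : ‖v‖ₑ ^ p ≠ ⊤ := ENNReal.rpow_ne_top_of_nonneg hp0.le enorm_ne_top
      calc ∫⁻ x, G x (x + v) ∂μ
          ≤ ∫⁻ x, Bv.indicator (fun x => ‖v‖ₑ ^ p * ∫⁻ s in Ioc (0 : ℝ) 1, k (x + s • v) ^ p) x ∂μ :=
            lintegral_mono_ae h1
        _ = ∫⁻ x in Bv, ‖v‖ₑ ^ p * (∫⁻ s in Ioc (0 : ℝ) 1, k (x + s • v) ^ p) ∂μ :=
            lintegral_indicator hBvm _
        _ = ‖v‖ₑ ^ p * ∫⁻ x in Bv, (∫⁻ s in Ioc (0 : ℝ) 1, k (x + s • v) ^ p) ∂μ :=
            lintegral_const_mul' _ _ hvt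
        _ ≤ ENNReal.ofReal r ^ p * ∫⁻ z in B, k z ^ p ∂μ := by
            have h3 := lintegral_segAvg_le (μ := μ) hkp (B := Bv) (T := B) hBvm 0 v (by
              intro x hx s hs
              rw [add_zero]
              exact hseg x hx s hs)
            simp only [add_zero] at h3
            refine mul_le_mul' (ENNReal.rpow_le_rpow ?_ hp0.le) h3
            rw [← ofReal_norm]
            refine ENNReal.ofReal_le_ofReal ?_
            rw [mem_ball_zero_iff] at hv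
            exact hv.le
        _ = ENNReal.ofReal r ^ p * ∫⁻ z in B, ‖F z - A‖ₑ ^ p ∂μ := by
            congr 1
            refine setLIntegral_congr_fun hB.measurableSet fun z hz => ?_
            simp only [hk, indicator_of_mem hz]
    · have : ∀ x, G x (x + v) = 0 := by
        intro x
        simp only [hG]
        by_cases hx1 : x ∈ B
        · rw [indicator_of_mem hx1, indicator_of_notMem]
          intro hx2
          apply hv
          have := hr x hx1 (x + v) hx2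
          rw [add_sub_cancel_left] at this
          rwa [mem_ball_zero_iff]
        · rw [indicator_of_notMem hx1]
      simp only [this, lintegral_zero]
      exact zero_le
  calc ∫⁻ v, ∫⁻ x, G x (x + v) ∂μ ∂μ
      ≤ ∫⁻ v, (ball (0 : E) r).indicator
          (fun _ => ENNReal.ofReal r ^ p * ∫⁻ z in B, ‖F z - A‖ₑ ^ p ∂μ) v ∂μ := lintegral_mono key
    _ = ENNReal.ofReal r ^ p * μ (ball 0 r) * ∫⁻ z in B, ‖F z - A‖ₑ ^ p ∂μ := by
        rw [lintegral_indicator measurableSet_ball, setLIntegral_const]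
        ring

omit [FiniteDimensional ℝ E] [μ.IsAddHaarMeasure] [NormedSpace ℝ E] in
theorem av_eq_lintegral (S : Set E) (h : E → ℝ≥0∞) :
    av μ S h = ∫⁻ z, h z ∂((μ S)⁻¹ • μ.restrict S) := by
  unfold av
  rw [lintegral_smul_measure, ENNReal.div_eq_inv_mul, smul_eq_mul]

omit [FiniteDimensional ℝ E] [μ.IsAddHaarMeasure] [NormedSpace ℝ E] in
theorem isProb {S : Set E} (h0 : μ S ≠ 0) (ht : μ S ≠ ⊤) :
    IsProbabilityMeasure ((μ S)⁻¹ • μ.restrict S) := by
  constructor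
  rw [Measure.smul_apply, Measure.restrict_apply_univ, smul_eq_mul, ENNReal.inv_mul_cancel h0 ht]

/-- Jensen's inequality for a probability measure. -/
theorem lintegral_rpow_le' {α : Type*} [MeasurableSpace α] {ν : Measure α} [IsProbabilityMeasure ν]
    {h : α → ℝ≥0∞} {p : ℝ} (hp : 1 ≤ p) (hh : AEMeasurable h ν) :
    (∫⁻ s, h s ∂ν) ^ p ≤ ∫⁻ s, h s ^ p ∂ν := by
  have hp0 : 0 < p := lt_of_lt_of_le zero_lt_one hp
  rcases eq_or_lt_of_le hp with rfl | hp1
  · simp only [ENNReal.rpow_one, le_refl]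
  · have hpq : p.HolderConjugate (Real.conjExponent p) := Real.HolderConjugate.conjExponent hp1
    have h1 := ENNReal.lintegral_mul_le_Lp_mul_Lq ν hpq hh
      (aemeasurable_const (b := (1 : ℝ≥0∞)))
    have h2 : (∫⁻ s, h s ∂ν) ≤ (∫⁻ s, h s ^ p ∂ν) ^ (1 / p) := by
      simpa using h1
    calc (∫⁻ s, h s ∂ν) ^ p ≤ ((∫⁻ s, h s ^ p ∂ν) ^ (1 / p)) ^ p :=
          ENNReal.rpow_le_rpow h2 hp0.le
      _ = ∫⁻ s, h s ^ p ∂ν := by
          rw [← ENNReal.rpow_mul, one_div_mul_cancel hp0.ne', ENNReal.rpow_one]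

omit [FiniteDimensional ℝ E] [NormedSpace ℝ E] [μ.IsAddHaarMeasure] in
theorem av_le_rpow {S : Set E} (h0 : μ S ≠ 0) (ht : μ S ≠ ⊤) {p : ℝ} (hp : 1 ≤ p)
    {h : E → ℝ≥0∞} (hh : AEMeasurable h (μ.restrict S)) :
    av μ S h ≤ (av μ S fun z => h z ^ p) ^ (1 / p) := by
  have hp0 : 0 < p := lt_of_lt_of_le zero_lt_one hp
  have := isProb h0 ht
  rw [av_eq_lintegral, av_eq_lintegral, ← ENNReal.rpow_le_rpow_iff hp0, ← ENNReal.rpow_mul,
    one_div_mul_cancel hp0.ne', ENNReal.rpow_one]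
  exact lintegral_rpow_le' hp (hh.smul_measure _)

omit [CompleteSpace E'] in
theorem avp_triangle (hf : ContinuousOn f Ω) (A : E →L[ℝ] E') {p : ℝ} (hp : 1 ≤ p)
    {S T : Set E} (hS : MeasurableSet S) (hSΩ : S ⊆ Ω) (hS0 : μ S ≠ 0) (hSt : μ S ≠ ⊤)
    (hT : MeasurableSet T) (hTΩ : T ⊆ Ω) (hT0 : μ T ≠ 0) (hTt : μ T ≠ ⊤) (x : E) :
    (av μ T fun z => inc f A x z ^ p) ^ (1 / p) ≤ (av μ S fun w => inc f A x w ^ p) ^ (1 / p) +
      (av μ S fun w => av μ T fun z => inc f A w z ^ p) ^ (1 / p) := by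
  have hp0 : 0 < p := lt_of_lt_of_le zero_lt_one hp
  have := isProb hS0 hSt
  have := isProb hT0 hTt
  simp only [av_eq_lintegral]
  set νS := (μ S)⁻¹ • μ.restrict S with hνS
  set νT := (μ T)⁻¹ • μ.restrict T with hνT
  have hfS : AEStronglyMeasurable f νS :=
    ((hf.mono hSΩ).aestronglyMeasurable hS).smul_measure _
  have hfT : AEStronglyMeasurable f νT :=
    ((hf.mono hTΩ).aestronglyMeasurable hT).smul_measure _
  have hxT : AEMeasurable (inc f A x) νT :=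
    (aemeasurable_inc hf A x hT hTΩ).smul_measure _
  have hxS : AEMeasurable (inc f A x) νS :=
    (aemeasurable_inc hf A x hS hSΩ).smul_measure _
  have hwz : AEMeasurable (fun q : E × E => inc f A q.1 q.2) (νS.prod νT) := by
    unfold inc
    refine (((hfT.comp_snd).sub hfS.comp_fst).sub ?_).enorm
    exact (A.continuous.comp (by fun_prop)).aestronglyMeasurable
  have e1 : ∫⁻ z, inc f A x z ^ p ∂νT = ∫⁻ q, inc f A x q.2 ^ p ∂(νS.prod νT) := by
    rw [lintegral_prod _ (hxT.comp_snd.pow_const p)]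
    simp only [lintegral_const, measure_univ, mul_one]
  have e2 : ∫⁻ w, inc f A x w ^ p ∂νS = ∫⁻ q, inc f A x q.1 ^ p ∂(νS.prod νT) := by
    rw [lintegral_prod _ (hxS.comp_fst.pow_const p)]
    simp only [lintegral_const, measure_univ, mul_one]
  have e3 : ∫⁻ w, ∫⁻ z, inc f A w z ^ p ∂νT ∂νS =
      ∫⁻ q, inc f A q.1 q.2 ^ p ∂(νS.prod νT) := by
    rw [lintegral_prod _ (hwz.pow_const p)]
  rw [e1, e2, e3]
  refine le_trans ?_ (ENNReal.lintegral_Lp_add_le (μ := νS.prod νT)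
    (f := fun q => inc f A x q.1) (g := fun q => inc f A q.1 q.2) hxS.comp_fst hwz hp)
  refine ENNReal.rpow_le_rpow ?_ (by positivity)
  refine lintegral_mono fun q => ENNReal.rpow_le_rpow ?_ hp0.le
  exact inc_triangle f A x q.1 q.2

theorem av_av_leP (hΩ : IsOpen Ω) (hf : ContinuousOn f Ω) (hF : LocallyIntegrableOn F Ω μ)
    (hw : WeakDeriv μ Ω f F) (A : E →L[ℝ] E') {p : ℝ} (hp : 1 ≤ p) {x : E} {ρ : ℝ} (hρ : 0 < ρ)
    (hb : ball x ρ ⊆ Ω) {S : Set E} (hS : S ⊆ ball x ρ) (hS0 : μ S ≠ 0) (hSt : μ S ≠ ⊤)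
    (hK : μ (ball x ρ) ≤ 2 ^ finrank ℝ E * μ S) :
    av μ S (fun w => av μ (ball x ρ) fun z => inc f A w z ^ p) ≤
      4 ^ finrank ℝ E * ENNReal.ofReal (2 * ρ) ^ p *
        av μ (ball x ρ) (fun z => ‖F z - A‖ₑ ^ p) := by
  set n := finrank ℝ E with hn
  have hB0 := ball_ne_zero (μ := μ) x hρ
  have hBt := ball_ne_top (μ := μ) x ρ
  have hP := poincareP (μ := μ) hΩ hf hF hw A hp isOpen_ball (convex_ball x ρ) hb (r := 2 * ρ) (by
    intro a ha b hb
    rw [mem_ball, dist_eq_norm] at ha hb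
    calc ‖b - a‖ = ‖(b - x) - (a - x)‖ := by congr 1; abel
      _ ≤ ‖b - x‖ + ‖a - x‖ := norm_sub_le _ _
      _ < 2 * ρ := by linarith)
  have h2 : μ (ball (0 : E) (2 * ρ)) = 2 ^ n * μ (ball x ρ) := measure_ball_two 0 x ρ
  rw [h2] at hP
  set I := ∫⁻ z in ball x ρ, ‖F z - A‖ₑ ^ p ∂μ with hI
  set M := μ (ball x ρ) with hM
  unfold av
  rw [← hM]
  simp only [ENNReal.div_eq_inv_mul]
  rw [lintegral_const_mul' _ _ (ENNReal.inv_ne_top.2 hB0)]
  calc (μ S)⁻¹ * (M⁻¹ * ∫⁻ w in S, ∫⁻ z in ball x ρ, inc f A w z ^ p ∂μ ∂μ)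
      ≤ (μ S)⁻¹ * (M⁻¹ * (ENNReal.ofReal (2 * ρ) ^ p * (2 ^ n * M) * I)) := by
        gcongr
        exact (lintegral_mono_set hS).trans hP
    _ = (μ S)⁻¹ * (M⁻¹ * M) * (ENNReal.ofReal (2 * ρ) ^ p * 2 ^ n * I) := by ring
    _ = (μ S)⁻¹ * (ENNReal.ofReal (2 * ρ) ^ p * 2 ^ n * I) := by
        rw [ENNReal.inv_mul_cancel hB0 hBt, mul_one]
    _ ≤ (2 ^ n * M⁻¹) * (ENNReal.ofReal (2 * ρ) ^ p * 2 ^ n * I) := by
        gcongr
        calc (μ S)⁻¹ = (μ S)⁻¹ * (M * M⁻¹) := by rw [ENNReal.mul_inv_cancel hB0 hBt, mul_one]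
          _ ≤ (μ S)⁻¹ * ((2 ^ n * μ S) * M⁻¹) := by gcongr
          _ = ((μ S)⁻¹ * μ S) * (2 ^ n * M⁻¹) := by ring
          _ = 2 ^ n * M⁻¹ := by rw [ENNReal.inv_mul_cancel hS0 hSt, one_mul]
    _ = 4 ^ n * ENNReal.ofReal (2 * ρ) ^ p * (M⁻¹ * I) := by
        have : (4 : ℝ≥0∞) ^ n = 2 ^ n * 2 ^ n := by
          rw [← mul_pow]
          norm_num
        rw [this]
        ring

theorem av_stepP (hΩ : IsOpen Ω) (hf : ContinuousOn f Ω) (hF : LocallyIntegrableOn F Ω μ)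
    (hw : WeakDeriv μ Ω f F) (A : E →L[ℝ] E') {p : ℝ} (hp : 1 ≤ p) {x : E} {ρ : ℝ} (hρ : 0 < ρ)
    (hb : ball x ρ ⊆ Ω) {η : ℝ≥0∞} (hη : (av μ (ball x ρ) fun z => ‖F z - A‖ₑ ^ p) ≤ η ^ p) :
    (av μ (ball x ρ) fun z => inc f A x z ^ p) ^ (1 / p) ≤
      (av μ (ball x (ρ / 2)) fun z => inc f A x z ^ p) ^ (1 / p) +
      4 ^ finrank ℝ E * ENNReal.ofReal (2 * ρ) * η := by
  have hp0 : 0 < p := lt_of_lt_of_le zero_lt_one hp
  have hsub : ball x (ρ / 2) ⊆ ball x ρ := ball_subset_ball (by linarith)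
  have h2 : μ (ball x ρ) = 2 ^ finrank ℝ E * μ (ball x (ρ / 2)) := by
    rw [← measure_ball_two x x (ρ / 2)]
    congr 2
    ring
  refine (avp_triangle hf A hp measurableSet_ball (hsub.trans hb)
    (ball_ne_zero x (half_pos hρ)) (ball_ne_top x _) measurableSet_ball hb (ball_ne_zero x hρ)
    (ball_ne_top x ρ) x).trans ?_
  refine add_le_add le_rfl ?_
  have h3 := av_av_leP hΩ hf hF hw A hp hρ hb hsub (ball_ne_zero x (half_pos hρ))
    (ball_ne_top x _) h2.le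
  have h4 : (1 : ℝ≥0∞) ≤ 4 ^ finrank ℝ E := one_le_pow₀ (by norm_num)
  calc _ ≤ (4 ^ finrank ℝ E * ENNReal.ofReal (2 * ρ) ^ p * η ^ p) ^ (1 / p) :=
        ENNReal.rpow_le_rpow (h3.trans (by gcongr)) (by positivity)
    _ = ((4 : ℝ≥0∞) ^ finrank ℝ E) ^ (1 / p) * ENNReal.ofReal (2 * ρ) * η := by
        rw [ENNReal.mul_rpow_of_nonneg _ _ (by positivity),
          ENNReal.mul_rpow_of_nonneg _ _ (by positivity), ← ENNReal.rpow_mul, ← ENNReal.rpow_mul,
          mul_one_div_cancel hp0.ne', ENNReal.rpow_one, ENNReal.rpow_one]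
    _ ≤ 4 ^ finrank ℝ E * ENNReal.ofReal (2 * ρ) * η := by
        have h5 : ((4 : ℝ≥0∞) ^ finrank ℝ E) ^ (1 / p) ≤ 4 ^ finrank ℝ E := by
          calc ((4 : ℝ≥0∞) ^ finrank ℝ E) ^ (1 / p) ≤ ((4 : ℝ≥0∞) ^ finrank ℝ E) ^ (1 : ℝ) :=
                ENNReal.rpow_le_rpow_of_exponent_le h4 (by rw [div_le_one hp0]; exact hp)
            _ = 4 ^ finrank ℝ E := ENNReal.rpow_one _
        gcongr

theorem av_stepsP (hΩ : IsOpen Ω) (hf : ContinuousOn f Ω) (hF : LocallyIntegrableOn F Ω μ)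
    (hw : WeakDeriv μ Ω f F) (A : E →L[ℝ] E') {p : ℝ} (hp : 1 ≤ p) {x : E} {ρ : ℝ} (hρ : 0 < ρ)
    (hb : ball x ρ ⊆ Ω) {η : ℝ≥0∞}
    (hη : ∀ j : ℕ, av μ (ball x (ρ / 2 ^ j)) (fun z => ‖F z - A‖ₑ ^ p) ≤ η ^ p) (j : ℕ) :
    (av μ (ball x ρ) fun z => inc f A x z ^ p) ^ (1 / p) ≤
      (av μ (ball x (ρ / 2 ^ j)) fun z => inc f A x z ^ p) ^ (1 / p) +
      4 ^ finrank ℝ E * ENNReal.ofReal (4 * ρ * (1 - (1 / 2) ^ j)) * η := by
  induction j with
  | zero => simp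
  | succ j ih =>
    have hj : 0 < ρ / 2 ^ j := by positivity
    have h1 := av_stepP (μ := μ) hΩ hf hF hw A hp hj
      ((ball_subset_ball (div_le_self hρ.le (one_le_pow₀ one_le_two))).trans hb) (hη j)
    have e : ρ / 2 ^ j / 2 = ρ / 2 ^ (j + 1) := by rw [pow_succ]; field_simp
    rw [e] at h1
    refine ih.trans ((add_le_add_left h1 _).trans ?_)
    have hpow : (0 : ℝ) ≤ 1 - (1 / 2) ^ j := by
      have : ((1 : ℝ) / 2) ^ j ≤ 1 := pow_le_one₀ (by norm_num) (by norm_num)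
      linarith
    have e2 : ENNReal.ofReal (4 * ρ * (1 - (1 / 2) ^ (j + 1))) =
        ENNReal.ofReal (2 * (ρ / 2 ^ j)) + ENNReal.ofReal (4 * ρ * (1 - (1 / 2) ^ j)) := by
      rw [← ENNReal.ofReal_add (by positivity) (by positivity)]
      congr 1
      rw [pow_succ, one_div_pow]
      field_simp
      ring
    rw [e2, mul_add, add_mul, add_assoc]

theorem tendsto_av_incP (hΩ : IsOpen Ω) (hf : ContinuousOn f Ω) (A : E →L[ℝ] E') {p : ℝ}
    (hp : 1 ≤ p) {x : E} (hx : x ∈ Ω) {ρ : ℝ} (_hρ : 0 < ρ) :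
    Tendsto (fun j : ℕ => (av μ (ball x (ρ / 2 ^ j)) fun z => inc f A x z ^ p) ^ (1 / p))
      atTop (𝓝 0) := by
  have hp0 : 0 < p := lt_of_lt_of_le zero_lt_one hp
  rw [ENNReal.tendsto_nhds_zero]
  intro ε hε
  have hc : ContinuousAt (fun y => f y - f x - A (y - x)) x := by
    have h1 : ContinuousAt f x := hf.continuousAt (hΩ.mem_nhds hx)
    exact (h1.sub continuousAt_const).sub (A.continuous.comp (by fun_prop)).continuousAt
  have hc2 : ContinuousAt (fun y => ‖f y - f x - A (y - x)‖ₑ) x := hc.enorm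
  have h0 : ‖f x - f x - A (x - x)‖ₑ = 0 := by simp
  have h3 : ∀ᶠ y in 𝓝 x, ‖f y - f x - A (y - x)‖ₑ < ε := by
    refine hc2.eventually_lt continuousAt_const ?_
    rw [h0]
    exact hε
  obtain ⟨δ, hδ, hb⟩ := Metric.eventually_nhds_iff_ball.1 h3
  have ht : Tendsto (fun j : ℕ => ρ / 2 ^ j) atTop (𝓝 0) := by
    have := (tendsto_pow_atTop_nhds_zero_of_lt_one (r := (1 / 2 : ℝ)) (by norm_num)
      (by norm_num)).const_mul ρ
    simpa [div_eq_mul_inv] using this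
  filter_upwards [ht.eventually (gt_mem_nhds hδ)] with j hj
  have h5 : (av μ (ball x (ρ / 2 ^ j)) fun z => inc f A x z ^ p) ≤ ε ^ p := by
    refine av_le_of_le measurableSet_ball fun z hz => ?_
    exact ENNReal.rpow_le_rpow (hb z (ball_subset_ball hj.le hz)).le hp0.le
  calc _ ≤ (ε ^ p) ^ (1 / p) := ENNReal.rpow_le_rpow h5 (by positivity)
    _ = ε := by rw [← ENNReal.rpow_mul, mul_one_div_cancel hp0.ne', ENNReal.rpow_one]

/-- The `L^p` distance to the affine map at a point where all the smaller `L^p` averages of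
`|F - A|` are at most `η`. -/
theorem av_inc_leP (hΩ : IsOpen Ω) (hf : ContinuousOn f Ω) (hF : LocallyIntegrableOn F Ω μ)
    (hw : WeakDeriv μ Ω f F) (A : E →L[ℝ] E') {p : ℝ} (hp : 1 ≤ p) {x : E} {ρ : ℝ} (hρ : 0 < ρ)
    (hb : ball x ρ ⊆ Ω) {η : ℝ≥0∞}
    (hη : ∀ j : ℕ, av μ (ball x (ρ / 2 ^ j)) (fun z => ‖F z - A‖ₑ ^ p) ≤ η ^ p) :
    ∫⁻ z in ball x ρ, inc f A x z ^ p ∂μ ≤
      (4 ^ finrank ℝ E * ENNReal.ofReal (4 * ρ) * η) ^ p * μ (ball x ρ) := by
  have hp0 : 0 < p := lt_of_lt_of_le zero_lt_one hp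
  have hx : x ∈ Ω := hb (mem_ball_self hρ)
  have h1 : ∀ j : ℕ, (av μ (ball x ρ) fun z => inc f A x z ^ p) ^ (1 / p) ≤
      (av μ (ball x (ρ / 2 ^ j)) fun z => inc f A x z ^ p) ^ (1 / p) +
      4 ^ finrank ℝ E * ENNReal.ofReal (4 * ρ) * η := by
    intro j
    refine (av_stepsP hΩ hf hF hw A hp hρ hb hη j).trans ?_
    have h3 : ENNReal.ofReal (4 * ρ * (1 - (1 / 2) ^ j)) ≤ ENNReal.ofReal (4 * ρ) := by
      refine ENNReal.ofReal_le_ofReal ?_
      have : (0 : ℝ) ≤ (1 / 2) ^ j := by positivity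
      nlinarith
    gcongr
  have h2 := (tendsto_av_incP (μ := μ) hΩ hf A hp hx hρ).add_const
    (4 ^ finrank ℝ E * ENNReal.ofReal (4 * ρ) * η)
  rw [zero_add] at h2
  have h3 := ge_of_tendsto' h2 h1
  have h4 : (av μ (ball x ρ) fun z => inc f A x z ^ p) ≤
      (4 ^ finrank ℝ E * ENNReal.ofReal (4 * ρ) * η) ^ p := by
    have h5 := ENNReal.rpow_le_rpow h3 hp0.le
    rwa [← ENNReal.rpow_mul, one_div_mul_cancel hp0.ne', ENNReal.rpow_one] at h5
  unfold av at h4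
  rwa [ENNReal.div_le_iff_le_mul (Or.inl (ball_ne_zero x hρ)) (Or.inl (ball_ne_top x ρ))] at h4

end

end Vale.Agent.P073.HB
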