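import Vale.Agent.P073.HB.Haj4
import Mathlib.MeasureTheory.Constructions.BorelSpace.ContinuousLinearMap
import Mathlib.Analysis.Normed.Module.FiniteDimension

/-!
# P073: uniform Lusin sets of Sobolev maps
-/

namespace Vale.Agent.P073.HB

open MeasureTheory Set Filter Topology Metric Module
open scoped ENNReal ContDiff NNReal

section

variable {E E' : Type*} [NormedAddCommGroup E] [NormedSpace ℝ E] [FiniteDimensional ℝ E]
  [MeasurableSpace E] [BorelSpace E] {μ : Measure E} [μ.IsAddHaarMeasure]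
  [NormedAddCommGroup E'] [NormedSpace ℝ E']
  {Ω : Set E} {f : E → E'} {F : E → (E →L[ℝ] E')}

omit [μ.IsAddHaarMeasure] [FiniteDimensional ℝ E] [BorelSpace E] in
theorem integrableOn_of_rpow (hμΩ : μ Ω ≠ ⊤)
    (hF : AEStronglyMeasurable F (μ.restrict Ω)) {p : ℝ} (hp : 1 ≤ p)
    (hFp : ∫⁻ z in Ω, ‖F z‖ₑ ^ p ∂μ ≠ ⊤) : IntegrableOn F Ω μ := by
  refine ⟨hF, ?_⟩
  rw [hasFiniteIntegral_iff_enorm]
  refine lt_of_le_of_lt (b := ∫⁻ z in Ω, (1 + ‖F z‖ₑ ^ p) ∂μ) (lintegral_mono fun z => ?_) ?_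
  · rcases le_total ‖F z‖ₑ 1 with h | h
    · exact h.trans le_self_add
    · refine le_trans ?_ le_add_self
      calc ‖F z‖ₑ = ‖F z‖ₑ ^ (1 : ℝ) := (ENNReal.rpow_one _).symm
        _ ≤ ‖F z‖ₑ ^ p := ENNReal.rpow_le_rpow_of_exponent_le h hp
  · rw [lintegral_add_left measurable_const, setLIntegral_const, one_mul]
    exact ENNReal.add_lt_top.2 ⟨hμΩ.lt_top, hFp.lt_top⟩

theorem av_sub_le [CompleteSpace E'] {x : E} {r : ℝ} (hr : 0 < r) (A B : E →L[ℝ] E') :
    av μ (ball x r) (fun z => ‖F z - A‖ₑ) ≤ av μ (ball x r) (fun z => ‖F z - B‖ₑ) +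
      ‖B - A‖ₑ := by
  unfold av
  have h0 := ball_ne_zero (μ := μ) x hr
  have ht := ball_ne_top (μ := μ) x r
  refine ENNReal.div_le_of_le_mul ?_
  rw [add_mul, ENNReal.div_mul_cancel h0 ht, ← setLIntegral_const,
    ← lintegral_add_right _ measurable_const]
  refine lintegral_mono fun z => ?_
  calc ‖F z - A‖ₑ = ‖(F z - B) + (B - A)‖ₑ := by rw [sub_add_sub_cancel]
    _ ≤ ‖F z - B‖ₑ + ‖B - A‖ₑ := by
      rw [← ofReal_norm, ← ofReal_norm (F z - B), ← ofReal_norm (B - A),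
        ← ENNReal.ofReal_add (norm_nonneg _) (norm_nonneg _)]
      exact ENNReal.ofReal_le_ofReal (norm_add_le _ _)

/-- **Lusin sets of Sobolev maps.** Let `f` be continuous on `Ω` with weak derivative
`F ∈ L^p(Ω)`. Any measurable `K ⊆ Ω` contains a compact set `T`, with `μ (K \ T) < ε`, on which `F`
is continuous, the points of which are uniform `L^p` Lebesgue points of `F`, and uniform `L^p`
differentiability points of `f`, and on which `f` is uniformly differentiable. -/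
theorem exists_lusin_set [FiniteDimensional ℝ E'] (hΩ : IsOpen Ω) (hμΩ : μ Ω ≠ ⊤)
    (hf : ContinuousOn f Ω) (hF : AEStronglyMeasurable F (μ.restrict Ω))
    (hw : WeakDeriv μ Ω f F) {p : ℝ} (hp : 1 ≤ p) (hFp : ∫⁻ z in Ω, ‖F z‖ₑ ^ p ∂μ ≠ ⊤)
    {K : Set E} (hK : MeasurableSet K) (hKΩ : K ⊆ Ω) {ε : ℝ≥0∞} (hε : ε ≠ 0) :
    ∃ T ⊆ K, IsCompact T ∧ μ (K \ T) < ε ∧ ContinuousOn F T ∧
      ∀ η : ℝ, 0 < η → ∃ δ > 0, ∀ x ∈ T, ball x δ ⊆ Ω ∧
        (∀ r, 0 < r → r ≤ δ →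
          ∫⁻ z in ball x r, ‖F z - F x‖ₑ ^ p ∂μ ≤ ENNReal.ofReal η ^ p * μ (ball x r)) ∧
        (∀ r, 0 < r → r ≤ δ →
          ∫⁻ z in ball x r, ‖f z - f x - F x (z - x)‖ₑ ^ p ∂μ ≤
            ENNReal.ofReal (η * r) ^ p * μ (ball x r)) ∧
        ∀ y ∈ T, ‖y - x‖ ≤ δ →
          ‖F y - F x‖ ≤ η ∧ ‖f y - f x - F x (y - x)‖ ≤ η * ‖y - x‖ := by
  have hp0 : 0 < p := lt_of_lt_of_le zero_lt_one hp
  have : ProperSpace (E →L[ℝ] E') := FiniteDimensional.proper ℝ _
  have : CompleteSpace E' := FiniteDimensional.complete ℝ E'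
  have hFi := integrableOn_of_rpow hμΩ hF hp hFp
  have hFl : LocallyIntegrableOn F Ω μ := hFi.locallyIntegrableOn
  obtain ⟨T, hTK, hTc, hTμ, hTF, hT⟩ := exists_uniform_lebesgue (μ := μ) hΩ hμΩ hF.aemeasurable
    hp hFp hK hKΩ hε
  refine ⟨T, hTK, hTc, hTμ, hTF, fun η hη => ?_⟩
  set n := finrank ℝ E with hn
  set η₁ : ℝ := η / (24 * 8 ^ n) with hη₁
  have hη₁0 : 0 < η₁ := by positivity
  have hη₁e : 8 ^ n * 24 * η₁ = η := by
    rw [hη₁]
    field_simp
  have h8 : (1 : ℝ) ≤ 8 ^ n := one_le_pow₀ (by norm_num)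
  have h48 : (4 : ℝ) ^ n ≤ 8 ^ n := pow_le_pow_left₀ (by norm_num) (by norm_num) n
  have hη₁η : η₁ ≤ η := by nlinarith
  obtain ⟨δ₁, hδ₁, hδ₁Ω, hδ₁F⟩ := hT (ENNReal.ofReal η₁ ^ p) (by
    rw [Ne, ENNReal.rpow_eq_zero_iff]
    push Not
    refine ⟨fun h => ?_, fun h => ?_⟩
    · rw [ENNReal.ofReal_eq_zero] at h
      linarith
    · exact absurd h ENNReal.ofReal_ne_top)
  have hTu := hTc.uniformContinuousOn_of_continuous hTF
  obtain ⟨δ₂, hδ₂, hδ₂F⟩ := Metric.uniformContinuousOn_iff.1 hTu η₁ hη₁0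
  have hav : ∀ x ∈ T, ∀ r, 0 < r → r ≤ δ₁ →
      (av μ (ball x r) fun z => ‖F z - F x‖ₑ ^ p) ≤ ENNReal.ofReal η₁ ^ p := by
    intro x hx r hr hrδ
    unfold av
    exact ENNReal.div_le_of_le_mul (hδ₁F x hx r hr hrδ)
  have hav1 : ∀ x ∈ T, ∀ r, 0 < r → r ≤ δ₁ →
      av μ (ball x r) (fun z => ‖F z - F x‖ₑ) ≤ ENNReal.ofReal η₁ := by
    intro x hx r hr hrδ
    have hm : AEMeasurable (fun z => ‖F z - F x‖ₑ) (μ.restrict (ball x r)) := by
      have h1 : AEStronglyMeasurable F (μ.restrict (ball x r)) :=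
        hF.mono_measure (Measure.restrict_mono ((ball_subset_ball hrδ).trans (hδ₁Ω x hx)) le_rfl)
      exact (h1.sub aestronglyMeasurable_const).enorm
    refine (av_le_rpow (ball_ne_zero x hr) (ball_ne_top x r) hp hm).trans ?_
    calc _ ≤ (ENNReal.ofReal η₁ ^ p) ^ (1 / p) :=
          ENNReal.rpow_le_rpow (hav x hx r hr hrδ) (by positivity)
      _ = _ := by rw [← ENNReal.rpow_mul, mul_one_div_cancel hp0.ne', ENNReal.rpow_one]
  refine ⟨min (δ₁ / 2) (δ₂ / 2), by positivity, fun x hx => ⟨?_, ?_, ?_, ?_⟩⟩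
  · refine (ball_subset_ball ?_).trans (hδ₁Ω x hx)
    exact (min_le_left _ _).trans (by linarith)
  · intro r hr0 hr
    have hr1 : r ≤ δ₁ := hr.trans ((min_le_left _ _).trans (by linarith))
    refine (hδ₁F x hx r hr0 hr1).trans ?_
    gcongr
  · intro r hr0 hr
    have hr1 : r ≤ δ₁ := hr.trans ((min_le_left _ _).trans (by linarith))
    have hb : ball x r ⊆ Ω := (ball_subset_ball hr1).trans (hδ₁Ω x hx)
    have h := av_inc_leP (μ := μ) hΩ hf hFl hw (F x) hp hr0 hb (η := ENNReal.ofReal η₁)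
      (fun j => hav x hx _ (by positivity)
        ((div_le_self hr0.le (one_le_pow₀ one_le_two)).trans hr1))
    refine h.trans ?_
    gcongr
    have e : (4 : ℝ≥0∞) ^ n * ENNReal.ofReal (4 * r) * ENNReal.ofReal η₁ =
        ENNReal.ofReal (4 ^ n * (4 * r) * η₁) := by
      rw [ENNReal.ofReal_mul (p := 4 ^ n * (4 * r)) (by positivity),
        ENNReal.ofReal_mul (p := 4 ^ n) (by positivity),
        ENNReal.ofReal_pow (by norm_num), ENNReal.ofReal_ofNat]
    rw [e]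
    refine ENNReal.ofReal_le_ofReal ?_
    have h3 : 4 ^ n * (4 * r) * η₁ ≤ 8 ^ n * (4 * r) * η₁ := by gcongr
    calc 4 ^ n * (4 * r) * η₁ ≤ 8 ^ n * (4 * r) * η₁ := h3
      _ ≤ (8 ^ n * 24 * η₁) * r := by
          have : 0 ≤ 8 ^ n * r * η₁ := by positivity
          linarith
      _ = η * r := by rw [hη₁e]
  · intro y hy hyx
    have hyx1 : ‖y - x‖ ≤ δ₁ / 2 := hyx.trans (min_le_left _ _)
    have hyx2 : ‖y - x‖ < δ₂ := (hyx.trans (min_le_right _ _)).trans_lt (by linarith)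
    have hFyx : ‖F y - F x‖ < η₁ := by
      have := hδ₂F y hy x hx (by rwa [dist_eq_norm])
      rwa [dist_eq_norm] at this
    refine ⟨hFyx.le.trans hη₁η, ?_⟩
    rcases eq_or_ne y x with rfl | hne
    · simp
    · have hr : 0 < ‖y - x‖ := norm_pos_iff.2 (sub_ne_zero.2 hne)
      set r := ‖y - x‖ with hrdef
      have hb : ball x (2 * r) ⊆ Ω := (ball_subset_ball (by linarith)).trans (hδ₁Ω x hx)
      have h := hajlasz (μ := μ) hΩ hf hFl hw (F x) (x := x) (y := y) hr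
        (by rw [hrdef, norm_sub_rev]) hb (η := ENNReal.ofReal η₁)
        (η' := ENNReal.ofReal η₁ + ENNReal.ofReal η₁) (fun j => by
          refine hav1 x hx _ (by positivity) ?_
          exact (div_le_self (by positivity) (one_le_pow₀ one_le_two)).trans (by linarith))
        (fun j => by
          have hj : 0 < r / 2 ^ j := by positivity
          refine (av_sub_le hj (F x) (F y)).trans (add_le_add ?_ ?_)
          · refine hav1 y hy _ hj ?_
            exact (div_le_self hr.le (one_le_pow₀ one_le_two)).trans (by linarith)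
          · rw [← ofReal_norm]
            exact ENNReal.ofReal_le_ofReal hFyx.le)
      have e : (8 : ℝ≥0∞) ^ n * ENNReal.ofReal (8 * r) *
          (ENNReal.ofReal η₁ + (ENNReal.ofReal η₁ + ENNReal.ofReal η₁)) =
          ENNReal.ofReal (η * r) := by
        rw [← ENNReal.ofReal_add hη₁0.le hη₁0.le, ← ENNReal.ofReal_add hη₁0.le (by positivity),
          ← ENNReal.ofReal_ofNat, ← ENNReal.ofReal_pow (by norm_num),
          ← ENNReal.ofReal_mul (by positivity), ← ENNReal.ofReal_mul (by positivity)]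
        congr 1
        rw [← hη₁e]
        ring
      rw [e, ← ofReal_norm] at h
      exact (ENNReal.ofReal_le_ofReal_iff (by positivity)).1 h

end

end Vale.Agent.P073.HB
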